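import Vale.Agent.P180.H393.Ir
import Vale.Agent.P180.R2.H471.Hc2

/-!
P180 H393: Harish-Chandra restriction of class functions on general linear groups.
-/

set_option linter.all false

namespace Vale.Agent.P180.H393

open Vale.Agent.P180.R2.H471.Hc Finset

universe u

section Conj

variable {F : Type} [Field F]
variable {V V' V'' : Type} [AddCommGroup V] [Module F V] [AddCommGroup V'] [Module F V']
  [AddCommGroup V''] [Module F V'']

/-- transport of automorphisms -/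
def cg (e : V ≃ₗ[F] V') : (V ≃ₗ[F] V) ≃* (V' ≃ₗ[F] V') where
  toFun g := (e.symm.trans g).trans e
  invFun g := (e.trans g).trans e.symm
  left_inv g := by ext x; simp
  right_inv g := by ext x; simp
  map_mul' g h := by ext x; simp [LinearEquiv.mul_apply]

theorem cg_apply (e : V ≃ₗ[F] V') (g : V ≃ₗ[F] V) (x : V') : cg e g x = e (g (e.symm x)) := rfl

theorem cg_trans (e : V ≃ₗ[F] V') (e' : V' ≃ₗ[F] V'') (g : V ≃ₗ[F] V) :
    cg (e.trans e') g = cg e' (cg e g) := rfl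

theorem cg_refl (g : V ≃ₗ[F] V) : cg (LinearEquiv.refl F V) g = g := rfl

theorem cg_symm (e : V ≃ₗ[F] V') (g : V' ≃ₗ[F] V') : cg e (cg e.symm g) = g := by
  ext x; simp [cg_apply]

theorem cg_symm' (e : V ≃ₗ[F] V') (g : V ≃ₗ[F] V) : cg e.symm (cg e g) = g := by
  ext x; simp [cg_apply]

/-- inner automorphisms -/
theorem cg_self (h g : V ≃ₗ[F] V) : cg h g = h * g * h⁻¹ := rfl

instance finGL [Finite V] [Finite V'] : Finite (V ≃ₗ[F] V') := DFunLike.finite _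

instance finHom [Finite V] [Finite V'] : Finite (V →ₗ[F] V') := DFunLike.finite _

end Conj

section Fint

variable {F : Type} [Field F]
variable {V V' : Type} [AddCommGroup V] [Module F V] [AddCommGroup V'] [Module F V']

noncomputable instance fintGL [Finite V] [Finite V'] : Fintype (V ≃ₗ[F] V') := Fintype.ofFinite _

noncomputable instance fintHom [Finite V] [Finite V'] : Fintype (V →ₗ[F] V') := Fintype.ofFinite _

end Fint

section Levi

variable {F : Type} [Field F]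
variable {A B : Type} [AddCommGroup A] [Module F A] [AddCommGroup B] [Module F B]

/-- block triangular automorphisms; the second factor is invariant -/
def sk (a : A ≃ₗ[F] A) (b : B ≃ₗ[F] B) (f : A →ₗ[F] B) : (A × B) ≃ₗ[F] (A × B) := a.skewProd b f

theorem sk_apply (a : A ≃ₗ[F] A) (b : B ≃ₗ[F] B) (f : A →ₗ[F] B) (x : A × B) :
    sk a b f x = (a x.1, b x.2 + f x.1) := rfl

theorem sk_mul (a a' : A ≃ₗ[F] A) (b b' : B ≃ₗ[F] B) (f f' : A →ₗ[F] B) :
    sk a b f * sk a' b' f' = sk (a * a') (b * b')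
      ((b : B →ₗ[F] B) ∘ₗ f' + f ∘ₗ (a' : A →ₗ[F] A)) := by
  apply LinearEquiv.ext
  intro x
  rw [LinearEquiv.mul_apply, sk_apply, sk_apply, sk_apply]
  refine Prod.ext rfl ?_
  change b (b' x.2 + f' x.1) + f (a' x.1) = b (b' x.2) + (b (f' x.1) + f (a' x.1))
  rw [map_add, add_assoc]

theorem sk_one : sk (1 : A ≃ₗ[F] A) (1 : B ≃ₗ[F] B) 0 = 1 := by
  apply LinearEquiv.ext
  intro x
  rw [sk_apply]
  refine Prod.ext rfl ?_
  change x.2 + 0 = x.2
  rw [add_zero]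

theorem sk_inj {a a' : A ≃ₗ[F] A} {b b' : B ≃ₗ[F] B} {f f' : A →ₗ[F] B}
    (h : sk a b f = sk a' b' f') : a = a' ∧ b = b' ∧ f = f' := by
  have h1 : ∀ x y, (a x, b y + f x) = (a' x, b' y + f' x) := fun x y => by
    have := congrArg (fun g => g (x, y)) h
    exact this
  refine ⟨?_, ?_, ?_⟩
  · ext x; exact (Prod.ext_iff.mp (h1 x 0)).1
  · ext y
    have := (Prod.ext_iff.mp (h1 0 y)).2
    simpa using this
  · ext x
    have := (Prod.ext_iff.mp (h1 x 0)).2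
    simpa using this

/-- the inverse -/
theorem sk_inv (a : A ≃ₗ[F] A) (b : B ≃ₗ[F] B) (f : A →ₗ[F] B) :
    (sk a b f)⁻¹ = sk a⁻¹ b⁻¹ (-(((b⁻¹ : B ≃ₗ[F] B) : B →ₗ[F] B) ∘ₗ f ∘ₗ
      ((a⁻¹ : A ≃ₗ[F] A) : A →ₗ[F] A))) := by
  rw [inv_eq_iff_mul_eq_one, sk_mul, mul_inv_cancel, mul_inv_cancel, ← sk_one]
  congr 1
  ext x
  change b (-(b⁻¹ (f (a⁻¹ x)))) + f (a⁻¹ x) = 0
  rw [map_neg]
  have : b (b⁻¹ (f (a⁻¹ x))) = f (a⁻¹ x) := b.apply_symm_apply _
  rw [this, neg_add_cancel]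

variable [Finite A] [Finite B]

variable {K : Type u} [Field K]

/-- Harish-Chandra restriction of a class function -/
noncomputable def Res (θ : ((A × B) ≃ₗ[F] (A × B)) → K) (a : A ≃ₗ[F] A) (b : B ≃ₗ[F] B) : K :=
  (Nat.card (A →ₗ[F] B) : K)⁻¹ * ∑ f : A →ₗ[F] B, θ (sk a b f)

/-- the multiplicity -/
noncomputable def mu (α : (A ≃ₗ[F] A) → K) (β : (B ≃ₗ[F] B) → K)
    (γ : ((A × B) ≃ₗ[F] (A × B)) → K) : K :=
  (Nat.card (A ≃ₗ[F] A) : K)⁻¹ * (Nat.card (B ≃ₗ[F] B) : K)⁻¹ *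
    ∑ a : A ≃ₗ[F] A, ∑ b : B ≃ₗ[F] B, Res γ a b * α a⁻¹ * β b⁻¹

/-- the parabolic subgroup -/
def PB (A B : Type) [AddCommGroup A] [Module F A] [AddCommGroup B] [Module F B] :
    Subgroup ((A × B) ≃ₗ[F] (A × B)) where
  carrier := {g | ∃ a b f, g = sk a b f}
  mul_mem' := by
    rintro _ _ ⟨a, b, f, rfl⟩ ⟨a', b', f', rfl⟩
    exact ⟨_, _, _, sk_mul a a' b b' f f'⟩
  one_mem' := ⟨1, 1, 0, sk_one.symm⟩
  inv_mem' := by
    rintro _ ⟨a, b, f, rfl⟩
    exact ⟨_, _, _, sk_inv a b f⟩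

/-- the unipotent radical -/
def UB (A B : Type) [AddCommGroup A] [Module F A] [AddCommGroup B] [Module F B] :
    Subgroup ((A × B) ≃ₗ[F] (A × B)) where
  carrier := {g | ∃ f, g = sk 1 1 f}
  mul_mem' := by
    rintro _ _ ⟨f, rfl⟩ ⟨f', rfl⟩
    exact ⟨_, by rw [sk_mul, mul_one, mul_one]⟩
  one_mem' := ⟨0, sk_one.symm⟩
  inv_mem' := by
    rintro _ ⟨f, rfl⟩
    exact ⟨_, by rw [sk_inv, inv_one, inv_one]⟩

omit [Finite A] [Finite B] in
theorem UB_norm {g h : (A × B) ≃ₗ[F] (A × B)} (hg : g ∈ PB (F := F) A B)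
    (hh : h ∈ UB (F := F) A B) : g * h * g⁻¹ ∈ UB (F := F) A B := by
  obtain ⟨a, b, f, rfl⟩ := hg
  obtain ⟨f', rfl⟩ := hh
  rw [sk_inv, sk_mul, sk_mul, mul_one, mul_one, mul_inv_cancel, mul_inv_cancel]
  exact ⟨_, rfl⟩

/-- the Levi subgroup -/
def LB (F A B : Type) [Field F] [AddCommGroup A] [Module F A] [AddCommGroup B] [Module F B] :
    (A ≃ₗ[F] A) × (B ≃ₗ[F] B) →* (A × B) ≃ₗ[F] (A × B) where
  toFun x := sk x.1 x.2 0
  map_one' := sk_one
  map_mul' x y := by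
    rw [sk_mul, LinearMap.comp_zero, LinearMap.zero_comp, add_zero]
    rfl

variable [CharZero K]

theorem card_ne' (X : Type) [Finite X] [Nonempty X] : ((Nat.card X : ℕ) : K) ≠ 0 := by
  have : Nat.card X ≠ 0 := Nat.card_pos.ne'
  exact_mod_cast this

/-- the restriction of a character is a character of the Levi subgroup -/
theorem isCh_Res {γ : ((A × B) ≃ₗ[F] (A × B)) → K} (h : IsCh K _ γ) :
    IsCh K ((A ≃ₗ[F] A) × (B ≃ₗ[F] B)) (fun x => Res γ x.1 x.2) := by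
  classical
  let P : Subgroup ((A × B) ≃ₗ[F] (A × B)) := PB A B
  let U : Subgroup P := (UB (F := F) A B).subgroupOf P
  have hU : U.Normal := ⟨fun n hn g => by
    rw [Subgroup.mem_subgroupOf] at hn ⊢
    exact UB_norm g.2 hn⟩
  have _ := Fintype.ofFinite P
  have h1 : IsCh K P (fun x : P => γ x) := h.comp P.subtype
  have h2 := h1.average U
  let ι : (A ≃ₗ[F] A) × (B ≃ₗ[F] B) →* P :=
    (LB F A B).codRestrict P (fun x => ⟨x.1, x.2, 0, rfl⟩)
  refine (h2.comp ι).congr fun x => ?_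
  let E : (A →ₗ[F] B) ≃ U :=
    { toFun := fun f => ⟨⟨sk 1 1 f, 1, 1, f, rfl⟩, f, rfl⟩
      invFun := fun y => Classical.choose y.2
      left_inv := fun f => by
        have := Classical.choose_spec
          (⟨f, rfl⟩ : ∃ f', (⟨sk 1 1 f, 1, 1, f, rfl⟩ : P).1 = sk 1 1 f')
        exact (sk_inj this).2.2.symm
      right_inv := fun y => by
        apply Subtype.ext
        apply Subtype.ext
        exact (Classical.choose_spec y.2).symm }
  have _ := Fintype.ofFinite U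
  rw [av, sum_ic_mul, Res, ← Nat.card_congr E]
  congr 1
  -- reindex by `f ↦ f ∘ a⁻¹`
  rw [← Equiv.sum_comp E]
  have hE : ∀ f, γ ((E f : P) * ι x : P) = γ (sk x.1 x.2 (f ∘ₗ (x.1 : A →ₗ[F] A))) := by
    intro f
    change γ (sk 1 1 f * sk x.1 x.2 0) = _
    rw [sk_mul, one_mul, one_mul, LinearMap.comp_zero, zero_add]
  rw [Finset.sum_congr rfl fun f _ => hE f]
  let E' : (A →ₗ[F] B) ≃ (A →ₗ[F] B) :=
    { toFun := fun f => f ∘ₗ (x.1 : A →ₗ[F] A)
      invFun := fun f => f ∘ₗ (x.1.symm : A →ₗ[F] A)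
      left_inv := fun f => by ext y; simp
      right_inv := fun f => by ext y; simp }
  exact Equiv.sum_comp E' (fun f => γ (sk x.1 x.2 f))

theorem mu_eq_ip (α : (A ≃ₗ[F] A) → K) (β : (B ≃ₗ[F] B) → K)
    (γ : ((A × B) ≃ₗ[F] (A × B)) → K) :
    mu α β γ = ip (H := (A ≃ₗ[F] A) × (B ≃ₗ[F] B)) (fun x => Res γ x.1 x.2)
      (fun x => α x.1 * β x.2) := by
  rw [mu, ip, Nat.card_prod, Nat.cast_mul, mul_inv, Fintype.sum_prod_type]
  congr 1
  refine Finset.sum_congr rfl fun a _ => Finset.sum_congr rfl fun b _ => ?_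
  change _ = Res γ a b * (α a⁻¹ * β b⁻¹)
  ring

/-- multiplicities are natural numbers -/
theorem mu_nat {α : (A ≃ₗ[F] A) → K} {β : (B ≃ₗ[F] B) → K}
    {γ : ((A × B) ≃ₗ[F] (A × B)) → K} (hα : IsCh K _ α) (hβ : IsCh K _ β) (hγ : IsCh K _ γ) :
    ∃ m : ℕ, mu α β γ = m := by
  rw [mu_eq_ip]
  have h1 : IsCh K ((A ≃ₗ[F] A) × (B ≃ₗ[F] B)) (fun x => α x.1) :=
    hα.comp (MonoidHom.fst (A ≃ₗ[F] A) (B ≃ₗ[F] B))
  have h2 : IsCh K ((A ≃ₗ[F] A) × (B ≃ₗ[F] B)) (fun x => β x.2) :=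
    hβ.comp (MonoidHom.snd (A ≃ₗ[F] A) (B ≃ₗ[F] B))
  exact (isCh_Res hγ).ip_nat (h1.mul h2)

end Levi

end Vale.Agent.P180.H393
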