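import Vale.Agent.P180.R2.H854.TForm
import Vale.Agent.P180.H393.Gl

/-!
P180 H393: hyperbolic pairs of subspaces in a space with a form: the general linear group, the
unipotent radical, the swap.
-/

set_option linter.all false

namespace Vale.Agent.P180.H393.Fm

open Module Vale.Agent.P180.R2.H854

variable {K E : Type} [Field K] [AddCommGroup E] [Module K E]

/-- The isometry group. -/
def IsoG (Φ : HForm K E) : Subgroup (E ≃ₗ[K] E) where
  carrier := {g | ∀ x y, Φ.B (g x) (g y) = Φ.B x y}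
  one_mem' := fun _ _ => rfl
  mul_mem' := by
    intro a b ha hb x y
    exact (ha (b x) (b y)).trans (hb x y)
  inv_mem' := by
    intro a ha x y
    have h1 : ∀ z, a (a⁻¹ z) = z := fun z => LinearEquiv.apply_symm_apply a z
    rw [← ha, h1, h1]

theorem mem_IsoG {Φ : HForm K E} {g : E ≃ₗ[K] E} :
    g ∈ IsoG Φ ↔ ∀ x y, Φ.B (g x) (g y) = Φ.B x y := Iff.rfl

section hh

variable {ι : Type} [Fintype ι] (θ : K →+* K)

/-- the standard pairing -/
def hh (a b : ι → K) : K := ∑ i, a i * θ (b i)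

variable {θ}

theorem hh_add_left (a a' b : ι → K) : hh θ (a + a') b = hh θ a b + hh θ a' b := by
  simp only [hh, Pi.add_apply, add_mul, Finset.sum_add_distrib]

theorem hh_add_right (a b b' : ι → K) : hh θ a (b + b') = hh θ a b + hh θ a b' := by
  simp only [hh, Pi.add_apply, map_add, mul_add, Finset.sum_add_distrib]

theorem hh_smul_left (c : K) (a b : ι → K) : hh θ (c • a) b = c * hh θ a b := by
  simp only [hh, Pi.smul_apply, smul_eq_mul, mul_assoc, Finset.mul_sum]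

theorem hh_smul_right (c : K) (a b : ι → K) : hh θ a (c • b) = θ c * hh θ a b := by
  simp only [hh, Pi.smul_apply, smul_eq_mul, map_mul, Finset.mul_sum]
  exact Finset.sum_congr rfl fun i _ => by ring

theorem hh_symm (hθ : ∀ c, θ (θ c) = c) (a b : ι → K) : hh θ b a = θ (hh θ a b) := by
  simp only [hh, map_sum, map_mul, hθ]
  exact Finset.sum_congr rfl fun i _ => by ring

theorem hh_sub_left (a a' b : ι → K) : hh θ (a - a') b = hh θ a b - hh θ a' b := by
  simp only [hh, Pi.sub_apply, sub_mul, Finset.sum_sub_distrib]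

theorem hh_sub_right (a b b' : ι → K) : hh θ a (b - b') = hh θ a b - hh θ a b' := by
  simp only [hh, Pi.sub_apply, map_sub, mul_sub, Finset.sum_sub_distrib]

theorem hh_zero_left (b : ι → K) : hh θ 0 b = 0 := by simp [hh]

theorem hh_zero_right (b : ι → K) : hh θ b 0 = 0 := by simp [hh]

variable [DecidableEq ι]

theorem hh_single_left (i : ι) (b : ι → K) : hh θ (Pi.single i 1) b = θ (b i) := by
  simp only [hh, Pi.single_apply, ite_mul, one_mul, zero_mul, Finset.sum_ite_eq', Finset.mem_univ,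
    if_true]

theorem hh_single_right (i : ι) (a : ι → K) : hh θ a (Pi.single i 1) = a i := by
  unfold hh
  rw [Finset.sum_eq_single i]
  · simp
  · intro j _ hj
    simp [Pi.single_apply, hj]
  · intro h
    exact absurd (Finset.mem_univ i) h

theorem hh_ext_left {a a' : ι → K} (h : ∀ b, hh θ a b = hh θ a' b) : a = a' := by
  funext i
  rw [← hh_single_right (θ := θ) i a, ← hh_single_right (θ := θ) i a', h]

theorem hh_ext_right (hθ : ∀ c, θ (θ c) = c) {b b' : ι → K} (h : ∀ a, hh θ a b = hh θ a b') :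
    b = b' := by
  apply hh_ext_left (θ := θ)
  intro a
  rw [hh_symm hθ a b, hh_symm hθ a b', h]

/-- the inverse adjoint, as a linear map -/
def adjL (θ : K →+* K) (g : (ι → K) ≃ₗ[K] (ι → K)) : (ι → K) →ₗ[K] (ι → K) where
  toFun b := fun i => ∑ j, θ ((g⁻¹) (Pi.single i 1) j) * b j
  map_add' b b' := by
    funext i
    simp only [Pi.add_apply, mul_add, Finset.sum_add_distrib]
  map_smul' c b := by
    funext i
    simp only [Pi.smul_apply, smul_eq_mul, RingHom.id_apply, Finset.mul_sum]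
    exact Finset.sum_congr rfl fun j _ => by ring

theorem adjL_apply (g : (ι → K) ≃ₗ[K] (ι → K)) (b : ι → K) (i : ι) :
    adjL θ g b i = ∑ j, θ ((g⁻¹) (Pi.single i 1) j) * b j := rfl

theorem hh_adjL' (hθ : ∀ c, θ (θ c) = c) (g : (ι → K) ≃ₗ[K] (ι → K)) (a b : ι → K) :
    hh θ a (adjL θ g b) = hh θ (g⁻¹ a) b := by
  have h1 : ∀ i, θ (adjL θ g b i) = hh θ (g⁻¹ (Pi.single i 1)) b := by
    intro i
    rw [adjL_apply, map_sum]
    unfold hh
    refine Finset.sum_congr rfl fun j _ => ?_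
    rw [map_mul, hθ]
  have h2 : a = ∑ i, a i • (Pi.single i 1 : ι → K) := by
    funext j
    rw [Finset.sum_apply]
    simp [Pi.single_apply]
  conv_rhs => rw [h2]
  rw [map_sum]
  have h3 : ∀ (s : Finset ι) (f : ι → (ι → K)), hh θ (∑ i ∈ s, f i) b = ∑ i ∈ s, hh θ (f i) b := by
    intro s f
    classical
    induction s using Finset.induction_on with
    | empty => simp [hh_zero_left]
    | insert i s hi ih => rw [Finset.sum_insert hi, Finset.sum_insert hi, hh_add_left, ih]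
  rw [h3]
  conv_lhs => unfold hh
  refine Finset.sum_congr rfl fun i _ => ?_
  rw [h1, map_smul, hh_smul_left]

theorem hh_adjL (hθ : ∀ c, θ (θ c) = c) (g : (ι → K) ≃ₗ[K] (ι → K)) (a b : ι → K) :
    hh θ (g a) (adjL θ g b) = hh θ a b := by
  rw [hh_adjL' hθ]
  congr 1
  exact LinearEquiv.symm_apply_apply g a

theorem adjL_mul (hθ : ∀ c, θ (θ c) = c) (g g' : (ι → K) ≃ₗ[K] (ι → K)) (b : ι → K) :
    adjL θ (g * g') b = adjL θ g (adjL θ g' b) := by
  apply hh_ext_right hθ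
  intro a
  rw [hh_adjL' hθ, hh_adjL' hθ, hh_adjL' hθ, mul_inv_rev]
  rfl

theorem adjL_one (hθ : ∀ c, θ (θ c) = c) (b : ι → K) : adjL θ (1 : (ι → K) ≃ₗ[K] (ι → K)) b = b := by
  apply hh_ext_right hθ
  intro a
  rw [hh_adjL' hθ, inv_one]
  rfl

end hh

variable (Φ : HForm K E) (ι : Type) [Fintype ι]

/-- **A hyperbolic pair of totally isotropic subspaces**, with coordinates. -/
structure Hyp where
  x : (ι → K) →ₗ[K] E
  y : (ι → K) →ₗ[K] E
  xx : ∀ a b, Φ.B (x a) (x b) = 0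
  yy : ∀ a b, Φ.B (y a) (y b) = 0
  xy : ∀ a b, Φ.B (x a) (y b) = hh Φ.θ a b

variable {Φ ι}

theorem B_sub (u v w : E) : Φ.B (u - v) w = Φ.B u w - Φ.B v w := Φ.sub_left u v w

namespace Hyp

variable (P : Hyp Φ ι)

theorem yx (a b : ι → K) : Φ.B (P.y a) (P.x b) = Φ.ε * hh Φ.θ a b := by
  rw [Φ.symm (P.x b) (P.y a), P.xy, ← hh_symm Φ.θθ]

variable [DecidableEq ι]

/-- the first coordinate -/
def px : E →ₗ[K] (ι → K) where
  toFun v := fun i => Φ.B v (P.y (Pi.single i 1))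
  map_add' v w := by funext i; exact Φ.add_left v w _
  map_smul' c v := by funext i; exact Φ.smul_left c v _

/-- the second coordinate -/
def py : E →ₗ[K] (ι → K) where
  toFun v := fun i => Φ.θ Φ.ε * Φ.B v (P.x (Pi.single i 1))
  map_add' v w := by funext i; simp only [Pi.add_apply, Φ.add_left, mul_add]
  map_smul' c v := by
    funext i
    simp only [Pi.smul_apply, smul_eq_mul, Φ.smul_left, RingHom.id_apply]
    ring

theorem px_apply (v : E) (i : ι) : P.px v i = Φ.B v (P.y (Pi.single i 1)) := rfl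

theorem py_apply (v : E) (i : ι) : P.py v i = Φ.θ Φ.ε * Φ.B v (P.x (Pi.single i 1)) := rfl

theorem B_sum_right (s : Finset ι) (v : E) (f : ι → E) :
    Φ.B v (∑ i ∈ s, f i) = ∑ i ∈ s, Φ.B v (f i) := by
  classical
  induction s using Finset.induction_on with
  | empty => simp [Φ.zero_right]
  | insert i s hi ih => rw [Finset.sum_insert hi, Finset.sum_insert hi, Φ.add_right, ih]

theorem eq_sum (a : ι → K) : a = ∑ i, a i • (Pi.single i 1 : ι → K) := by
  funext j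
  rw [Finset.sum_apply]
  simp [Pi.single_apply]

theorem hh_px (v : E) (b : ι → K) : hh Φ.θ (P.px v) b = Φ.B v (P.y b) := by
  conv_rhs => rw [eq_sum b]
  rw [map_sum, B_sum_right]
  unfold hh
  refine Finset.sum_congr rfl fun i _ => ?_
  rw [map_smul, Φ.smul_right, px_apply]
  ring

theorem hh_py (v : E) (b : ι → K) : hh Φ.θ (P.py v) b = Φ.θ Φ.ε * Φ.B v (P.x b) := by
  conv_rhs => rw [eq_sum b]
  rw [map_sum, B_sum_right, Finset.mul_sum]
  unfold hh
  refine Finset.sum_congr rfl fun i _ => ?_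
  rw [map_smul, Φ.smul_right, py_apply]
  ring

theorem B_x (v : E) (b : ι → K) : Φ.B v (P.x b) = Φ.ε * hh Φ.θ (P.py v) b := by
  rw [hh_py, ← mul_assoc, Φ.εε, one_mul]

theorem B_y (v : E) (b : ι → K) : Φ.B v (P.y b) = hh Φ.θ (P.px v) b := (P.hh_px v b).symm

theorem B_x' (v : E) (b : ι → K) : Φ.B (P.x b) v = hh Φ.θ b (P.py v) := by
  rw [Φ.symm v, B_x, map_mul, ← mul_assoc, Φ.εε, one_mul, ← hh_symm Φ.θθ]

theorem B_y' (v : E) (b : ι → K) : Φ.B (P.y b) v = Φ.ε * hh Φ.θ b (P.px v) := by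
  rw [Φ.symm v, B_y, ← hh_symm Φ.θθ]

theorem px_x (a : ι → K) : P.px (P.x a) = a := by
  apply hh_ext_left (θ := Φ.θ)
  intro b
  rw [hh_px, P.xy]

theorem px_y (a : ι → K) : P.px (P.y a) = 0 := by
  apply hh_ext_left (θ := Φ.θ)
  intro b
  rw [hh_px, P.yy, hh_zero_left]

theorem py_x (a : ι → K) : P.py (P.x a) = 0 := by
  apply hh_ext_left (θ := Φ.θ)
  intro b
  rw [hh_py, P.xx, hh_zero_left, mul_zero]

theorem py_y (a : ι → K) : P.py (P.y a) = a := by
  apply hh_ext_left (θ := Φ.θ)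
  intro b
  rw [hh_py, P.yx, ← mul_assoc, mul_comm (Φ.θ Φ.ε), Φ.εε, one_mul]

theorem x_injective : Function.Injective P.x := fun a b h => by
  rw [← P.px_x a, h, P.px_x]

theorem y_injective : Function.Injective P.y := fun a b h => by
  rw [← P.py_y a, h, P.py_y]

/-- the component in the orthogonal complement -/
def pw (v : E) : E := v - P.x (P.px v) - P.y (P.py v)

theorem eq_add (v : E) : v = P.x (P.px v) + P.pw v + P.y (P.py v) := by
  unfold pw
  abel

theorem px_pw (v : E) : P.px (P.pw v) = 0 := by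
  unfold pw
  rw [map_sub, map_sub, px_x, px_y, sub_self, sub_zero]

theorem py_pw (v : E) : P.py (P.pw v) = 0 := by
  unfold pw
  rw [map_sub, map_sub, py_x, py_y, sub_zero, sub_self]

/-- The form in coordinates. -/
theorem B_coord (v w : E) : Φ.B v w = hh Φ.θ (P.px v) (P.py w) + Φ.B (P.pw v) (P.pw w) +
    Φ.ε * hh Φ.θ (P.py v) (P.px w) := by
  have h1 : Φ.B (P.pw v) (P.pw w) = Φ.B (P.pw v) w := by
    conv_rhs => rw [P.eq_add w]
    rw [Φ.add_right, Φ.add_right, B_x, B_y, px_pw, py_pw, hh_zero_left, hh_zero_left, mul_zero,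
      zero_add, add_zero]
  conv_lhs => rw [P.eq_add v]
  rw [Φ.add_left, Φ.add_left, B_x', B_y', h1]

theorem ext_coord {v w : E} (h1 : P.px v = P.px w) (h2 : P.pw v = P.pw w) (h3 : P.py v = P.py w) :
    v = w := by
  rw [P.eq_add v, P.eq_add w, h1, h2, h3]

/-! ### the general linear group -/

/-- the action of `GL` on `E`, as a linear map -/
def glL (g : (ι → K) ≃ₗ[K] (ι → K)) : E →ₗ[K] E where
  toFun v := v + P.x (g (P.px v) - P.px v) + P.y (adjL Φ.θ g (P.py v) - P.py v)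
  map_add' v w := by
    simp only [map_add, map_sub]
    abel
  map_smul' c v := by
    simp only [map_smul, map_sub, smul_add, smul_sub, RingHom.id_apply]

theorem glL_apply (g : (ι → K) ≃ₗ[K] (ι → K)) (v : E) :
    P.glL g v = v + P.x (g (P.px v) - P.px v) + P.y (adjL Φ.θ g (P.py v) - P.py v) := rfl

theorem px_glL (g : (ι → K) ≃ₗ[K] (ι → K)) (v : E) : P.px (P.glL g v) = g (P.px v) := by
  rw [glL_apply, map_add, map_add, px_x, px_y, add_zero]
  abel

theorem py_glL (g : (ι → K) ≃ₗ[K] (ι → K)) (v : E) :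
    P.py (P.glL g v) = adjL Φ.θ g (P.py v) := by
  rw [glL_apply, map_add, map_add, py_x, py_y, add_zero]
  abel

theorem pw_glL (g : (ι → K) ≃ₗ[K] (ι → K)) (v : E) : P.pw (P.glL g v) = P.pw v := by
  unfold pw
  rw [px_glL, py_glL, glL_apply, map_sub, map_sub]
  abel

theorem glL_mul (g g' : (ι → K) ≃ₗ[K] (ι → K)) (v : E) :
    P.glL (g * g') v = P.glL g (P.glL g' v) := by
  apply P.ext_coord
  · rw [px_glL, px_glL, px_glL]; rfl
  · rw [pw_glL, pw_glL, pw_glL]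
  · rw [py_glL, py_glL, py_glL, adjL_mul Φ.θθ]

theorem glL_one (v : E) : P.glL 1 v = v := by
  apply P.ext_coord
  · rw [px_glL]; rfl
  · rw [pw_glL]
  · rw [py_glL, adjL_one Φ.θθ]

/-- **The embedding of the general linear group.** -/
def gl : ((ι → K) ≃ₗ[K] (ι → K)) →* (E ≃ₗ[K] E) where
  toFun g := LinearEquiv.ofLinear (P.glL g) (P.glL g⁻¹)
    (by
      ext v
      change P.glL g (P.glL g⁻¹ v) = v
      rw [← glL_mul, mul_inv_cancel, glL_one])
    (by
      ext v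
      change P.glL g⁻¹ (P.glL g v) = v
      rw [← glL_mul, inv_mul_cancel, glL_one])
  map_one' := by
    ext v
    exact P.glL_one v
  map_mul' g g' := by
    ext v
    exact P.glL_mul g g' v

theorem gl_apply (g : (ι → K) ≃ₗ[K] (ι → K)) (v : E) :
    P.gl g v = v + P.x (g (P.px v) - P.px v) + P.y (adjL Φ.θ g (P.py v) - P.py v) := rfl

theorem px_gl (g : (ι → K) ≃ₗ[K] (ι → K)) (v : E) : P.px (P.gl g v) = g (P.px v) := P.px_glL g v

theorem py_gl (g : (ι → K) ≃ₗ[K] (ι → K)) (v : E) :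
    P.py (P.gl g v) = adjL Φ.θ g (P.py v) := P.py_glL g v

theorem pw_gl (g : (ι → K) ≃ₗ[K] (ι → K)) (v : E) : P.pw (P.gl g v) = P.pw v := P.pw_glL g v

theorem gl_x (g : (ι → K) ≃ₗ[K] (ι → K)) (a : ι → K) : P.gl g (P.x a) = P.x (g a) := by
  rw [gl_apply, px_x, py_x, map_zero, sub_zero, map_zero, add_zero, map_sub]
  abel

theorem gl_y (g : (ι → K) ≃ₗ[K] (ι → K)) (a : ι → K) : P.gl g (P.y a) = P.y (adjL Φ.θ g a) := by
  rw [gl_apply, px_y, py_y, map_zero, sub_zero, map_zero, add_zero, map_sub]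
  abel

theorem gl_w (g : (ι → K) ≃ₗ[K] (ι → K)) {v : E} (h1 : P.px v = 0) (h2 : P.py v = 0) :
    P.gl g v = v := by
  rw [gl_apply, h1, h2, map_zero, map_zero, sub_zero, map_zero, map_zero, add_zero, add_zero]

theorem gl_injective : Function.Injective P.gl := by
  intro g g' h
  ext1 a
  apply P.x_injective
  rw [← gl_x, h, gl_x]

theorem gl_mem (g : (ι → K) ≃ₗ[K] (ι → K)) : P.gl g ∈ IsoG Φ := by
  intro v w
  rw [P.B_coord (P.gl g v), P.B_coord v w, px_gl, px_gl, py_gl, py_gl, pw_gl, pw_gl,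
    hh_adjL Φ.θθ, hh_symm Φ.θθ (g (P.px w)) (adjL Φ.θ g (P.py v)), hh_adjL Φ.θθ,
    ← hh_symm Φ.θθ]

/-! ### the swap -/

/-- the swap, as a linear map -/
def ttL (c d : K) : E →ₗ[K] E where
  toFun v := v + P.x (c • P.py v - P.px v) + P.y (d • P.px v - P.py v)
  map_add' v w := by
    simp only [map_add, map_sub, smul_add]
    abel
  map_smul' e v := by
    simp only [map_smul, map_sub, smul_add, smul_sub, RingHom.id_apply, smul_comm e]

theorem ttL_apply (c d : K) (v : E) :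
    P.ttL c d v = v + P.x (c • P.py v - P.px v) + P.y (d • P.px v - P.py v) := rfl

theorem px_ttL (c d : K) (v : E) : P.px (P.ttL c d v) = c • P.py v := by
  rw [ttL_apply, map_add, map_add, px_x, px_y, add_zero]
  abel

theorem py_ttL (c d : K) (v : E) : P.py (P.ttL c d v) = d • P.px v := by
  rw [ttL_apply, map_add, map_add, py_x, py_y, add_zero]
  abel

theorem pw_ttL (c d : K) (v : E) : P.pw (P.ttL c d v) = P.pw v := by
  unfold pw
  rw [px_ttL, py_ttL, ttL_apply, map_sub, map_sub]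
  abel

theorem ttL_ttL {c d c' d' : K} (h : c * d' = 1) (h' : d * c' = 1) (v : E) :
    P.ttL c d (P.ttL c' d' v) = v := by
  apply P.ext_coord
  · rw [px_ttL, py_ttL, smul_smul, h, one_smul]
  · rw [pw_ttL, pw_ttL]
  · rw [py_ttL, px_ttL, smul_smul, h', one_smul]

/-- **The swap** `x a ↦ y a`, `y a ↦ ε x a`. -/
def tt : E ≃ₗ[K] E :=
  LinearEquiv.ofLinear (P.ttL Φ.ε 1) (P.ttL 1 (Φ.θ Φ.ε))
    (by
      ext v
      exact P.ttL_ttL Φ.εε (by rw [one_mul]) v)
    (by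
      ext v
      exact P.ttL_ttL (by rw [one_mul]) (by rw [mul_comm]; exact Φ.εε) v)

theorem tt_apply (v : E) :
    P.tt v = v + P.x (Φ.ε • P.py v - P.px v) + P.y ((1 : K) • P.px v - P.py v) := rfl

theorem px_tt (v : E) : P.px (P.tt v) = Φ.ε • P.py v := P.px_ttL _ _ v

theorem py_tt (v : E) : P.py (P.tt v) = P.px v := by
  have := P.py_ttL Φ.ε 1 v
  rwa [one_smul] at this

theorem pw_tt (v : E) : P.pw (P.tt v) = P.pw v := P.pw_ttL _ _ v

theorem tt_x (a : ι → K) : P.tt (P.x a) = P.y a := by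
  apply P.ext_coord
  · rw [px_tt, py_x, px_y, smul_zero]
  · rw [pw_tt]
    unfold pw
    rw [px_x, py_x, px_y, py_y, map_zero, map_zero]
    abel
  · rw [py_tt, px_x, py_y]

theorem tt_y (a : ι → K) : P.tt (P.y a) = Φ.ε • P.x a := by
  rw [← map_smul]
  apply P.ext_coord
  · rw [px_tt, py_y, px_x]
  · rw [pw_tt]
    unfold pw
    rw [px_x, py_x, px_y, py_y, map_zero, map_zero]
    abel
  · rw [py_tt, px_y, py_x]

theorem tt_w {v : E} (h1 : P.px v = 0) (h2 : P.py v = 0) : P.tt v = v := by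
  rw [tt_apply, h1, h2, smul_zero, smul_zero, sub_zero, map_zero, map_zero, add_zero, add_zero]

theorem tt_mem : P.tt ∈ IsoG Φ := by
  intro v w
  rw [P.B_coord (P.tt v), P.B_coord v w, px_tt, px_tt, py_tt, py_tt, pw_tt, pw_tt,
    hh_smul_left, hh_smul_right]
  have h := Φ.εε
  linear_combination (hh Φ.θ (P.px v) (P.py w)) * h

/-! ### the radical and the group of the complement -/

/-- **The unipotent radical** of the stabilizer of `x(M)`. -/
def UU : Subgroup (E ≃ₗ[K] E) where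
  carrier := {u | u ∈ IsoG Φ ∧ (∀ a, u (P.x a) = P.x a) ∧ ∀ v, P.py v = 0 → ∃ a, u v - v = P.x a}
  one_mem' := ⟨(IsoG Φ).one_mem, fun _ => rfl, fun v _ => ⟨0, by rw [map_zero]; exact sub_self v⟩⟩
  mul_mem' := by
    rintro u u' ⟨h1, h2, h3⟩ ⟨h1', h2', h3'⟩
    refine ⟨(IsoG Φ).mul_mem h1 h1', fun a => ?_, fun v hv => ?_⟩
    · change u (u' (P.x a)) = P.x a
      rw [h2', h2]
    · obtain ⟨a, ha⟩ := h3 v hv
      obtain ⟨a', ha'⟩ := h3' v hv
      refine ⟨a + a', ?_⟩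
      change u (u' v) - v = _
      have h4 : u' v = v + P.x a' := by rw [← ha']; abel
      rw [h4, map_add, h2, map_add, ← ha]
      abel
  inv_mem' := by
    rintro u ⟨h1, h2, h3⟩
    have h5 : ∀ z, u⁻¹ (u z) = z := fun z => LinearEquiv.symm_apply_apply u z
    have h2' : ∀ a, u⁻¹ (P.x a) = P.x a := fun a => by rw [← h2 a, h5, h2]
    refine ⟨(IsoG Φ).inv_mem h1, h2', fun v hv => ?_⟩
    obtain ⟨a, ha⟩ := h3 v hv
    refine ⟨-a, ?_⟩
    have h4 : u v = v + P.x a := by rw [← ha]; abel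
    have h6 : v = u⁻¹ v + P.x a := by
      rw [← h2' a, ← map_add, ← h4, h5]
    rw [map_neg]
    have h7 : v - u⁻¹ v = P.x a := by
      nth_rewrite 1 [h6]
      abel
    rw [← h7]
    abel

theorem mem_UU {u : E ≃ₗ[K] E} : u ∈ P.UU ↔ u ∈ IsoG Φ ∧ (∀ a, u (P.x a) = P.x a) ∧
    ∀ v, P.py v = 0 → ∃ a, u v - v = P.x a := Iff.rfl

/-- **The isometry group of the complement.** -/
def Fx : Subgroup (E ≃ₗ[K] E) where
  carrier := {g | g ∈ IsoG Φ ∧ (∀ a, g (P.x a) = P.x a) ∧ ∀ a, g (P.y a) = P.y a}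
  one_mem' := ⟨(IsoG Φ).one_mem, fun _ => rfl, fun _ => rfl⟩
  mul_mem' := by
    rintro u u' ⟨h1, h2, h3⟩ ⟨h1', h2', h3'⟩
    refine ⟨(IsoG Φ).mul_mem h1 h1', fun a => ?_, fun a => ?_⟩
    · change u (u' (P.x a)) = P.x a
      rw [h2', h2]
    · change u (u' (P.y a)) = P.y a
      rw [h3', h3]
  inv_mem' := by
    rintro u ⟨h1, h2, h3⟩
    have h5 : ∀ z, u⁻¹ (u z) = z := fun z => LinearEquiv.symm_apply_apply u z
    refine ⟨(IsoG Φ).inv_mem h1, fun a => ?_, fun a => ?_⟩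
    · rw [← h2 a, h5, h2]
    · rw [← h3 a, h5, h3]

theorem mem_Fx {g : E ≃ₗ[K] E} : g ∈ P.Fx ↔ g ∈ IsoG Φ ∧ (∀ a, g (P.x a) = P.x a) ∧
    ∀ a, g (P.y a) = P.y a := Iff.rfl

theorem px_of_fix {g : E ≃ₗ[K] E} (hg : g ∈ IsoG Φ) (h : ∀ a, g (P.y a) = P.y a) (v : E) :
    P.px (g v) = P.px v := by
  apply hh_ext_left (θ := Φ.θ)
  intro b
  rw [hh_px, hh_px, ← h b, hg, h b]

theorem py_of_fix {g : E ≃ₗ[K] E} (hg : g ∈ IsoG Φ) (h : ∀ a, g (P.x a) = P.x a) (v : E) :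
    P.py (g v) = P.py v := by
  apply hh_ext_left (θ := Φ.θ)
  intro b
  rw [hh_py, hh_py, ← h b, hg, h b]

theorem pw_of_fix {g : E ≃ₗ[K] E} (hg : g ∈ P.Fx) (v : E) : P.pw (g v) = g (P.pw v) := by
  unfold pw
  rw [P.px_of_fix hg.1 hg.2.2, P.py_of_fix hg.1 hg.2.1, map_sub, map_sub, hg.2.1, hg.2.2]

theorem gl_comm {g : E ≃ₗ[K] E} (hg : g ∈ P.Fx) (z : (ι → K) ≃ₗ[K] (ι → K)) :
    P.gl z * g = g * P.gl z := by
  ext v
  change P.gl z (g v) = g (P.gl z v)
  rw [gl_apply, gl_apply, P.px_of_fix hg.1 hg.2.2, P.py_of_fix hg.1 hg.2.1, map_add, map_add,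
    hg.2.1, hg.2.2]

theorem tt_comm {g : E ≃ₗ[K] E} (hg : g ∈ P.Fx) : P.tt * g = g * P.tt := by
  ext v
  change P.tt (g v) = g (P.tt v)
  rw [tt_apply, tt_apply, P.px_of_fix hg.1 hg.2.2, P.py_of_fix hg.1 hg.2.1, map_add, map_add,
    hg.2.1, hg.2.2]

/-- conjugation of the radical by an element of the stabilizer -/
theorem conj_UU {g u : E ≃ₗ[K] E} (hg : g ∈ IsoG Φ) (hgx : ∀ a, ∃ b, g (P.x a) = P.x b)
    (hgx' : ∀ a, ∃ b, g⁻¹ (P.x a) = P.x b) (hu : u ∈ P.UU) : g * u * g⁻¹ ∈ P.UU := by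
  obtain ⟨h1, h2, h3⟩ := hu
  have e1 : ∀ z, g (g⁻¹ z) = z := fun z => LinearEquiv.apply_symm_apply g z
  have e2 : ∀ z, g⁻¹ (g z) = z := fun z => LinearEquiv.symm_apply_apply g z
  refine ⟨(IsoG Φ).mul_mem ((IsoG Φ).mul_mem hg h1) ((IsoG Φ).inv_mem hg), fun a => ?_,
    fun v hv => ?_⟩
  · obtain ⟨b, hb⟩ := hgx' a
    change g (u (g⁻¹ (P.x a))) = P.x a
    rw [hb, h2, ← hb, e1]
  · have h4 : P.py (g⁻¹ v) = 0 := by
      apply hh_ext_left (θ := Φ.θ)
      intro b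
      obtain ⟨c, hc⟩ := hgx b
      rw [hh_py, hh_zero_left, ← hg, e1, hc, B_x, hv, hh_zero_left, mul_zero, mul_zero]
    obtain ⟨a, ha⟩ := h3 _ h4
    obtain ⟨b, hb⟩ := hgx a
    refine ⟨b, ?_⟩
    change g (u (g⁻¹ v)) - v = P.x b
    rw [← hb, ← ha, map_sub, e1]

theorem gl_norm (z : (ι → K) ≃ₗ[K] (ι → K)) {u : E ≃ₗ[K] E} (hu : u ∈ P.UU) :
    P.gl z * u * (P.gl z)⁻¹ ∈ P.UU := by
  refine P.conj_UU (P.gl_mem z) (fun a => ⟨_, P.gl_x z a⟩) (fun a => ⟨z⁻¹ a, ?_⟩) hu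
  rw [← map_inv, P.gl_x]

theorem Fx_norm {g : E ≃ₗ[K] E} (hg : g ∈ P.Fx) {u : E ≃ₗ[K] E} (hu : u ∈ P.UU) :
    g * u * g⁻¹ ∈ P.UU :=
  P.conj_UU hg.1 (fun a => ⟨a, hg.2.1 a⟩) (fun a => ⟨a, (P.Fx.inv_mem hg).2.1 a⟩) hu

theorem inf_Fx_UU : P.Fx ⊓ P.UU = ⊥ := by
  rw [eq_bot_iff]
  rintro u ⟨h1, h2, h3, h4⟩
  rw [Subgroup.mem_bot]
  ext v
  change u v = v
  have h5 : ∀ w, P.px w = 0 → P.py w = 0 → u w = w := by
    intro w hw1 hw2
    obtain ⟨a, ha⟩ := h4 w hw2
    have h6 : P.px (u w - w) = a := by rw [ha, px_x]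
    rw [map_sub, P.px_of_fix h1.1 h1.2.2, sub_self] at h6
    rw [← h6, map_zero] at ha
    exact sub_eq_zero.mp ha
  conv_lhs => rw [P.eq_add v]
  rw [map_add, map_add, h1.2.1, h1.2.2, h5 _ (P.px_pw v) (P.py_pw v), ← P.eq_add v]

end Hyp

end Vale.Agent.P180.H393.Fm
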