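import Vale.Agent.P180.H393.Fm

/-!
P180 H393: frames: sequences of hyperbolic pairs, the tower of isometry groups.
-/

set_option linter.all false

namespace Vale.Agent.P180.H393.Fm

open Module Vale.Agent.P180.R2.H854

variable {K E : Type} [Field K] [AddCommGroup E] [Module K E]

/-- **A frame**: `m` mutually orthogonal hyperbolic pairs with coordinates. -/
structure Frame (Φ : HForm K E) (ι : Type) [Fintype ι] (m : ℕ) where
  x : ℕ → (ι → K) →ₗ[K] E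
  y : ℕ → (ι → K) →ₗ[K] E
  xx : ∀ i < m, ∀ j < m, ∀ a b, Φ.B (x i a) (x j b) = 0
  yy : ∀ i < m, ∀ j < m, ∀ a b, Φ.B (y i a) (y j b) = 0
  xy : ∀ i < m, ∀ j < m, ∀ a b, Φ.B (x i a) (y j b) = if i = j then hh Φ.θ a b else 0

namespace Frame

variable {Φ : HForm K E} {ι : Type} [Fintype ι] {m : ℕ} (F : Frame Φ ι m)

/-- the `i`-th pair -/
def hyp (i : ℕ) (hi : i < m) : Hyp Φ ι where
  x := F.x i
  y := F.y i
  xx := F.xx i hi i hi
  yy := F.yy i hi i hi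
  xy a b := by rw [F.xy i hi i hi, if_pos rfl]

/-- the two halves of a function on a sum -/
def lft (a : ι ⊕ ι → K) : ι → K := fun i => a (Sum.inl i)
def rgt (a : ι ⊕ ι → K) : ι → K := fun i => a (Sum.inr i)

theorem hh_sum (θ : K →+* K) (a b : ι ⊕ ι → K) :
    hh θ a b = hh θ (lft a) (lft b) + hh θ (rgt a) (rgt b) := by
  unfold hh
  rw [Fintype.sum_sum_type]
  rfl

/-- a linear map from the two halves -/
def cat (f g : (ι → K) →ₗ[K] E) : (ι ⊕ ι → K) →ₗ[K] E where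
  toFun a := f (lft a) + g (rgt a)
  map_add' a b := by
    change f (lft a + lft b) + g (rgt a + rgt b) = _
    rw [map_add, map_add]
    abel
  map_smul' c a := by
    change f (c • lft a) + g (c • rgt a) = _
    rw [map_smul, map_smul, RingHom.id_apply, smul_add]

theorem cat_apply (f g : (ι → K) →ₗ[K] E) (a : ι ⊕ ι → K) : cat f g a = f (lft a) + g (rgt a) :=
  rfl

theorem yx (i : ℕ) (hi : i < m) (j : ℕ) (hj : j < m) (a b : ι → K) :
    Φ.B (F.y i a) (F.x j b) = if i = j then Φ.ε * hh Φ.θ a b else 0 := by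
  rw [Φ.symm (F.x j b) (F.y i a), F.xy j hj i hi]
  by_cases h : i = j
  · rw [if_pos h, if_pos h.symm, ← hh_symm Φ.θθ]
  · rw [if_neg h, if_neg (Ne.symm h), map_zero, mul_zero]

/-- **The pair of the indices `i + 1` (first) and `i` (second).** -/
def hyp2 (i : ℕ) (hi : i + 1 < m) : Hyp Φ (ι ⊕ ι) where
  x := cat (F.x (i + 1)) (F.x i)
  y := cat (F.y (i + 1)) (F.y i)
  xx a b := by
    have h0 : i < m := Nat.lt_of_succ_lt hi
    rw [cat_apply, cat_apply, Φ.add_left, Φ.add_right, Φ.add_right, F.xx _ hi _ hi,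
      F.xx _ hi _ h0, F.xx _ h0 _ hi, F.xx _ h0 _ h0]
    simp
  yy a b := by
    have h0 : i < m := Nat.lt_of_succ_lt hi
    rw [cat_apply, cat_apply, Φ.add_left, Φ.add_right, Φ.add_right, F.yy _ hi _ hi,
      F.yy _ hi _ h0, F.yy _ h0 _ hi, F.yy _ h0 _ h0]
    simp
  xy a b := by
    have h0 : i < m := Nat.lt_of_succ_lt hi
    rw [cat_apply, cat_apply, Φ.add_left, Φ.add_right, Φ.add_right, F.xy _ hi _ hi,
      F.xy _ hi _ h0, F.xy _ h0 _ hi, F.xy _ h0 _ h0, if_pos rfl, if_pos rfl,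
      if_neg (Nat.succ_ne_self i), if_neg (Nat.succ_ne_self i).symm, hh_sum]
    ring

/-- **The tower**: the isometries which fix the pairs of index at least `i`. -/
def H (i : ℕ) : Subgroup (E ≃ₗ[K] E) where
  carrier := {g | g ∈ IsoG Φ ∧ ∀ j, i ≤ j → j < m → (∀ a, g (F.x j a) = F.x j a) ∧
    ∀ a, g (F.y j a) = F.y j a}
  one_mem' := ⟨(IsoG Φ).one_mem, fun _ _ _ => ⟨fun _ => rfl, fun _ => rfl⟩⟩
  mul_mem' := by
    rintro u u' ⟨h1, h2⟩ ⟨h1', h2'⟩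
    refine ⟨(IsoG Φ).mul_mem h1 h1', fun j hj hjm => ⟨fun a => ?_, fun a => ?_⟩⟩
    · change u (u' (F.x j a)) = F.x j a
      rw [(h2' j hj hjm).1, (h2 j hj hjm).1]
    · change u (u' (F.y j a)) = F.y j a
      rw [(h2' j hj hjm).2, (h2 j hj hjm).2]
  inv_mem' := by
    rintro u ⟨h1, h2⟩
    have h5 : ∀ z, u⁻¹ (u z) = z := fun z => LinearEquiv.symm_apply_apply u z
    refine ⟨(IsoG Φ).inv_mem h1, fun j hj hjm => ⟨fun a => ?_, fun a => ?_⟩⟩
    · nth_rewrite 1 [← (h2 j hj hjm).1 a]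
      rw [h5]
    · nth_rewrite 1 [← (h2 j hj hjm).2 a]
      rw [h5]

theorem mem_H {i : ℕ} {g : E ≃ₗ[K] E} : g ∈ F.H i ↔ g ∈ IsoG Φ ∧ ∀ j, i ≤ j → j < m →
    (∀ a, g (F.x j a) = F.x j a) ∧ ∀ a, g (F.y j a) = F.y j a := Iff.rfl

theorem H_le (i : ℕ) : F.H i ≤ IsoG Φ := fun _ h => h.1

theorem H_top {i : ℕ} (h : m ≤ i) : F.H i = IsoG Φ := by
  ext g
  refine ⟨fun hg => hg.1, fun hg => ⟨hg, fun j h1 h2 => ?_⟩⟩
  omega

theorem H_mono {i j : ℕ} (h : i ≤ j) : F.H i ≤ F.H j :=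
  fun _ hg => ⟨hg.1, fun l h1 h2 => hg.2 l (h.trans h1) h2⟩

theorem H_le_Fx {i : ℕ} (hi : i < m) : F.H i ≤ (F.hyp i hi).Fx :=
  fun _ hg => ⟨hg.1, (hg.2 i le_rfl hi).1, (hg.2 i le_rfl hi).2⟩

theorem H_eq {i : ℕ} (hi : i < m) : F.H i = F.H (i + 1) ⊓ (F.hyp i hi).Fx := by
  ext g
  constructor
  · intro hg
    exact ⟨F.H_mono (Nat.le_succ i) hg, F.H_le_Fx hi hg⟩
  · rintro ⟨h1, h2⟩
    refine ⟨h1.1, fun j hj hjm => ?_⟩
    rcases Nat.eq_or_lt_of_le hj with h | h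
    · subst h
      exact ⟨h2.2.1, h2.2.2⟩
    · exact h1.2 j h hjm

variable [DecidableEq ι]

theorem px_ne {i : ℕ} (hi : i < m) {j : ℕ} (hj : j < m) (h : i ≠ j) (a : ι → K) :
    (F.hyp i hi).px (F.x j a) = 0 ∧ (F.hyp i hi).py (F.x j a) = 0 ∧
      (F.hyp i hi).px (F.y j a) = 0 ∧ (F.hyp i hi).py (F.y j a) = 0 := by
  refine ⟨?_, ?_, ?_, ?_⟩
  · apply hh_ext_left (θ := Φ.θ)
    intro b
    rw [Hyp.hh_px, hh_zero_left]
    change Φ.B (F.x j a) (F.y i b) = 0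
    rw [F.xy j hj i hi, if_neg (Ne.symm h)]
  · apply hh_ext_left (θ := Φ.θ)
    intro b
    rw [Hyp.hh_py, hh_zero_left]
    change _ * Φ.B (F.x j a) (F.x i b) = 0
    rw [F.xx j hj i hi, mul_zero]
  · apply hh_ext_left (θ := Φ.θ)
    intro b
    rw [Hyp.hh_px, hh_zero_left]
    change Φ.B (F.y j a) (F.y i b) = 0
    rw [F.yy j hj i hi]
  · apply hh_ext_left (θ := Φ.θ)
    intro b
    rw [Hyp.hh_py, hh_zero_left]
    change _ * Φ.B (F.y j a) (F.x i b) = 0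
    rw [F.yx j hj i hi, if_neg (Ne.symm h), mul_zero]

/-- An isometry of the pair which is trivial on the complement lies in the tower. -/
theorem gl_mem_H {i : ℕ} (hi : i < m) (g : (ι → K) ≃ₗ[K] (ι → K)) :
    (F.hyp i hi).gl g ∈ F.H (i + 1) := by
  refine ⟨Hyp.gl_mem _ g, fun j hj hjm => ⟨fun a => ?_, fun a => ?_⟩⟩
  · obtain ⟨h1, h2, -, -⟩ := F.px_ne hi hjm (by omega) a
    exact Hyp.gl_w _ g h1 h2
  · obtain ⟨-, -, h1, h2⟩ := F.px_ne hi hjm (by omega) a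
    exact Hyp.gl_w _ g h1 h2

theorem tt_mem_H {i : ℕ} (hi : i < m) : (F.hyp i hi).tt ∈ F.H (i + 1) := by
  refine ⟨Hyp.tt_mem _, fun j hj hjm => ⟨fun a => ?_, fun a => ?_⟩⟩
  · obtain ⟨h1, h2, -, -⟩ := F.px_ne hi hjm (by omega) a
    exact Hyp.tt_w _ h1 h2
  · obtain ⟨-, -, h1, h2⟩ := F.px_ne hi hjm (by omega) a
    exact Hyp.tt_w _ h1 h2

theorem gl_comm_H {i : ℕ} (hi : i < m) (g : (ι → K) ≃ₗ[K] (ι → K)) {h : E ≃ₗ[K] E}
    (hh : h ∈ F.H i) : (F.hyp i hi).gl g * h = h * (F.hyp i hi).gl g :=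
  Hyp.gl_comm _ (F.H_le_Fx hi hh) g

theorem tt_comm_H {i : ℕ} (hi : i < m) {h : E ≃ₗ[K] E} (hh : h ∈ F.H i) :
    (F.hyp i hi).tt * h = h * (F.hyp i hi).tt :=
  Hyp.tt_comm _ (F.H_le_Fx hi hh)

/-- **The radical** of level `i`. -/
def U (i : ℕ) (hi : i < m) : Subgroup (E ≃ₗ[K] E) := (F.hyp i hi).UU ⊓ F.H (i + 1)

theorem gl_norm_U {i : ℕ} (hi : i < m) (g : (ι → K) ≃ₗ[K] (ι → K)) {u : E ≃ₗ[K] E}
    (hu : u ∈ F.U i hi) : (F.hyp i hi).gl g * u * ((F.hyp i hi).gl g)⁻¹ ∈ F.U i hi :=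
  ⟨Hyp.gl_norm _ g hu.1, (F.H (i + 1)).mul_mem ((F.H (i + 1)).mul_mem (F.gl_mem_H hi g) hu.2)
    ((F.H (i + 1)).inv_mem (F.gl_mem_H hi g))⟩

theorem H_norm_U {i : ℕ} (hi : i < m) {g : E ≃ₗ[K] E} (hg : g ∈ F.H i) {u : E ≃ₗ[K] E}
    (hu : u ∈ F.U i hi) : g * u * g⁻¹ ∈ F.U i hi :=
  ⟨Hyp.Fx_norm _ (F.H_le_Fx hi hg) hu.1, (F.H (i + 1)).mul_mem ((F.H (i + 1)).mul_mem
    (F.H_mono (Nat.le_succ i) hg) hu.2) ((F.H (i + 1)).inv_mem (F.H_mono (Nat.le_succ i) hg))⟩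

/-! ### the exchange of two consecutive pairs -/

/-- the swap of the two halves -/
def swL : (ι ⊕ ι → K) ≃ₗ[K] (ι ⊕ ι → K) where
  toFun a := fun i => a (Sum.swap i)
  map_add' _ _ := rfl
  map_smul' _ _ := rfl
  invFun a := fun i => a (Sum.swap i)
  left_inv a := by funext i; simp
  right_inv a := by funext i; simp

/-- a block of the general linear group -/
def bl (g g' : (ι → K) ≃ₗ[K] (ι → K)) : (ι ⊕ ι → K) ≃ₗ[K] (ι ⊕ ι → K) where
  toFun a := Sum.elim (g (lft a)) (g' (rgt a))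
  map_add' a b := by
    funext i
    rcases i with i | i
    · change g (lft a + lft b) i = _
      rw [map_add]; rfl
    · change g' (rgt a + rgt b) i = _
      rw [map_add]; rfl
  map_smul' c a := by
    funext i
    rcases i with i | i
    · change g (c • lft a) i = _
      rw [map_smul]; rfl
    · change g' (c • rgt a) i = _
      rw [map_smul]; rfl
  invFun a := Sum.elim (g.symm (lft a)) (g'.symm (rgt a))
  left_inv a := by
    funext i
    rcases i with i | i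
    · change g.symm (g (lft a)) i = _
      rw [LinearEquiv.symm_apply_apply]; rfl
    · change g'.symm (g' (rgt a)) i = _
      rw [LinearEquiv.symm_apply_apply]; rfl
  right_inv a := by
    funext i
    rcases i with i | i
    · change g (g.symm (lft a)) i = _
      rw [LinearEquiv.apply_symm_apply]; rfl
    · change g' (g'.symm (rgt a)) i = _
      rw [LinearEquiv.apply_symm_apply]; rfl

/-- **The exchange** of the pairs `i + 1` and `i`. -/
def s (i : ℕ) (hi : i + 1 < m) : E ≃ₗ[K] E := (F.hyp2 i hi).gl swL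

/-- Two isometries which agree on a pair and on its complement. -/
theorem ext_hyp {κ : Type} [Fintype κ] [DecidableEq κ] (P : Hyp Φ κ) {g g' : E ≃ₗ[K] E}
    (h1 : ∀ a, g (P.x a) = g' (P.x a)) (h2 : ∀ a, g (P.y a) = g' (P.y a))
    (h3 : ∀ v, P.px v = 0 → P.py v = 0 → g v = g' v) : g = g' := by
  ext v
  rw [P.eq_add v, map_add, map_add, map_add, map_add, h1, h2, h3 _ (P.px_pw v) (P.py_pw v)]

end Frame

end Vale.Agent.P180.H393.Fm
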