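import Vale.Agent.P180.R2.H259.Exp.Dsa

set_option linter.all false

/-!
P180: the bound for the blocks of a normal subgroup with a `p`-group of outer automorphisms.
-/

namespace Vale.Agent.P180.H393

open Vale.Agent.P180 Vale.Agent.P180.H768.Gd Vale.Agent.P180.R2.H799

universe u

/-- Blocks of `N` with defect group `Q` which are stable under `P` with nonzero Brauer image have an
idempotent fixed by `P` with nonzero Brauer image and a corner of dimension at most `C`. -/
def OutBd (k : Type u) [Field k] {G : Type} [Group G] [Finite G] (N P Q : Subgroup G) (C : ℕ) :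
    Prop :=
  ∀ e a : MonoidAlgebra k G, IsBlockOf N e → a ∈ SubAlg k N → a ∈ Fix (cj k G) Q →
    e = tr (cj k G) Q N a → br Q e ≠ 0 → e ∈ Fix (cj k G) P → br P e ≠ 0 →
    ∃ i ∈ SubAlg k N, i ∈ Fix (cj k G) P ∧ i * i = i ∧ e * i = i ∧ br P i ≠ 0 ∧
      Module.finrank k (NN (SubAlg k N) i i) ≤ C

end Vale.Agent.P180.H393
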