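import Vale.Agent.P180.R2.H259.Exp.Dsa

set_option linter.all false

/-!
P180: transfer of a local idempotent with a small corner to a normal subgroup.
-/

namespace Vale.Agent.P180.H393

open Vale.Agent.P180 Vale.Agent.P180.H768.Gd Vale.Agent.P180.R2.H799
open Vale.Agent.P180.R2.H259.Cyc (PrimIn)
open Vale.Agent.P180.R2.H259.Exp (RT Le not_nilp sum_nilp le_of_not_nilp exists_prim_br)
open Vale.Agent.P180.R2.H259.Exp.Alg0 (exists_prim_decomp)

universe u

variable {k : Type u} [Field k] {p : ℕ} [Fact p.Prime] [CharP k p] {G : Type} [Group G] [Finite G]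

/-- **Transfer.** If the primitive idempotents of `(kN)^S` remain primitive in `(kG)^S`, then a local
idempotent of `(kG)^S` below `B` in `kN` with a small corner gives one in `(kN)^S`. -/
theorem transfer {S N : Subgroup G} (hS : IsPGroup p S) {j B : MonoidAlgebra k G}
    (hj : j ∈ Fix (cj k G) S) (hjj : j * j = j) (hBj : B * j = j) (hbr : br S j ≠ 0) {C : ℕ}
    (hC : Module.finrank k (NN (⊤ : Subalgebra k (MonoidAlgebra k G)) j j) ≤ C)
    (hB : B ∈ RT k N S) (hBB : B * B = B)
    (hprim : ∀ i, PrimIn (RT k N S) i → PrimIn (Fix (cj k G) S) i) :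
    ∃ i, PrimIn (RT k N S) i ∧ B * i = i ∧ i * B = i ∧ br S i ≠ 0 ∧
      Module.finrank k (NN (⊤ : Subalgebra k (MonoidAlgebra k G)) i i) ≤ C := by
  classical
  have hfin : FiniteDimensional k (MonoidAlgebra k G) :=
    Module.Finite.equiv (MonoidAlgebra.coeffLinearEquiv k (M := G) (S := k)).symm
  obtain ⟨j', hj', h1, h2, h3⟩ := exists_prim_br (S := Fix (cj k G) S) (Q := S) hj hjj hbr
  obtain ⟨m, f, hf, hsum⟩ := exists_prim_decomp (RT k N S) _ B hB hBB le_rfl
  have hBj' : B * j' = j' := by rw [← h1, ← mul_assoc, hBj]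
  obtain ⟨l, hl⟩ : ∃ l, Le (Fix (cj k G) S) j' (f l) := by
    by_contra hcon
    push Not at hcon
    have hnil : ∀ l, IsNilpotent (j' * 1 * f l * 1 * j') := fun l => by
      by_contra h
      exact hcon l (le_of_not_nilp hj' (hf l).1.idem (hf l).1.mem.1 (Subalgebra.one_mem _)
        (Subalgebra.one_mem _) h)
    have hs := sum_nilp hj' Finset.univ (fun l => j' * 1 * f l * 1 * j') fun l _ =>
      ⟨Subalgebra.mul_mem _ (Subalgebra.mul_mem _ (Subalgebra.mul_mem _ (Subalgebra.mul_mem _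
        hj'.mem (Subalgebra.one_mem _)) (hf l).1.mem.1) (Subalgebra.one_mem _)) hj'.mem,
        by simp only [← mul_assoc, hj'.idem], by rw [mul_assoc, hj'.idem], hnil l⟩
    have he : ∑ l, j' * 1 * f l * 1 * j' = j' := by
      simp only [mul_one]
      rw [← Finset.sum_mul, ← Finset.mul_sum, ← hsum, mul_assoc, hBj', hj'.idem]
    rw [he] at hs
    exact not_nilp hj' hs
  have hfl := hprim _ (hf l).1
  have hsymm : Le (Fix (cj k G) S) (f l) j' := hl.symm hj'.ne_zero hfl hj'.idem
  have hjj' : Le (Fix (cj k G) S) j' j :=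
    ⟨j', hj'.mem, j', hj'.mem, hj'.idem, hj'.idem, h2, h1, hj'.idem⟩
  have hle := hsymm.trans hjj'
  refine ⟨f l, (hf l).1, (hf l).2.1, (hf l).2.2, ?_, ?_⟩
  · intro h0
    apply h3
    obtain ⟨x, hx, y, hy, e1, e2, e3, e4, e5⟩ := hl
    have h4 : j' = x * f l * y := by rw [e3, e1]
    rw [h4, br_mul hS (Subalgebra.mul_mem _ hx hfl.mem) hy, br_mul hS hx hfl.mem, h0, mul_zero,
      zero_mul]
  · exact ((hle.finrank_right le_top _).trans (hle.finrank_left le_top _)).trans hC

end Vale.Agent.P180.H393
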