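import Vale.Agent.P180.H393.Fr

/-!
P180 H393: the exchange of two consecutive pairs of a frame.
-/

set_option linter.all false

namespace Vale.Agent.P180.H393.Fm

open Module Vale.Agent.P180.R2.H854

variable {K E : Type} [Field K] [AddCommGroup E] [Module K E]

namespace Frame

variable {Φ : HForm K E} {ι : Type} [Fintype ι] [DecidableEq ι] {m : ℕ} (F : Frame Φ ι m)

theorem bl_apply (g g' : (ι → K) ≃ₗ[K] (ι → K)) (a : ι ⊕ ι → K) :
    bl g g' a = Sum.elim (g (lft a)) (g' (rgt a)) := rfl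

theorem lft_bl (g g' : (ι → K) ≃ₗ[K] (ι → K)) (a : ι ⊕ ι → K) :
    lft (bl g g' a) = g (lft a) := rfl

theorem rgt_bl (g g' : (ι → K) ≃ₗ[K] (ι → K)) (a : ι ⊕ ι → K) :
    rgt (bl g g' a) = g' (rgt a) := rfl

theorem lft_elim (a b : ι → K) : lft (Sum.elim a b) = a := rfl
theorem rgt_elim (a b : ι → K) : rgt (Sum.elim a b) = b := rfl

theorem lft_swL (a : ι ⊕ ι → K) : lft (swL a) = rgt a := rfl
theorem rgt_swL (a : ι ⊕ ι → K) : rgt (swL a) = lft a := rfl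

theorem ext_lr {a b : ι ⊕ ι → K} (h1 : lft a = lft b) (h2 : rgt a = rgt b) : a = b := by
  funext i
  rcases i with i | i
  · exact congrFun h1 i
  · exact congrFun h2 i

theorem bl_mul (g g' h h' : (ι → K) ≃ₗ[K] (ι → K)) :
    bl (g * h) (g' * h') = bl g g' * bl h h' := by
  ext1 a
  exact ext_lr rfl rfl

theorem bl_one : bl (1 : (ι → K) ≃ₗ[K] (ι → K)) 1 = 1 := by
  ext1 a
  exact ext_lr rfl rfl

theorem swL_mul_swL : (swL : (ι ⊕ ι → K) ≃ₗ[K] (ι ⊕ ι → K)) * swL = 1 := by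
  ext1 a
  exact ext_lr rfl rfl

theorem swL_bl (g g' : (ι → K) ≃ₗ[K] (ι → K)) :
    swL * bl g g' = bl g' g * (swL : (ι ⊕ ι → K) ≃ₗ[K] (ι ⊕ ι → K)) := by
  ext1 a
  exact ext_lr rfl rfl

theorem adjL_bl {θ : K →+* K} (hθ : ∀ c, θ (θ c) = c) (g g' : (ι → K) ≃ₗ[K] (ι → K))
    (b : ι ⊕ ι → K) :
    adjL θ (bl g g') b = Sum.elim (adjL θ g (lft b)) (adjL θ g' (rgt b)) := by
  have key : ∀ a, hh θ (bl g g' a) (adjL θ (bl g g') b) =
      hh θ (bl g g' a) (Sum.elim (adjL θ g (lft b)) (adjL θ g' (rgt b))) := by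
    intro a
    rw [hh_adjL hθ, hh_sum, hh_sum, lft_bl, rgt_bl, lft_elim, rgt_elim, hh_adjL hθ, hh_adjL hθ]
  apply hh_ext_right hθ
  intro a
  have h1 := key ((bl g g').symm a)
  rwa [LinearEquiv.apply_symm_apply] at h1

theorem adjL_swL {θ : K →+* K} (hθ : ∀ c, θ (θ c) = c) (b : ι ⊕ ι → K) :
    adjL θ swL b = swL b := by
  apply hh_ext_right hθ
  intro a
  have h1 := hh_adjL hθ swL ((swL : (ι ⊕ ι → K) ≃ₗ[K] (ι ⊕ ι → K)) a) b
  have h2 : (swL : (ι ⊕ ι → K) ≃ₗ[K] (ι ⊕ ι → K)) (swL a) = a := ext_lr rfl rfl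
  rw [h2] at h1
  rw [h1, hh_sum, hh_sum, lft_swL, rgt_swL, lft_swL, rgt_swL, add_comm]

theorem hyp2_x (i : ℕ) (hi : i + 1 < m) (a : ι ⊕ ι → K) :
    (F.hyp2 i hi).x a = F.x (i + 1) (lft a) + F.x i (rgt a) := rfl

theorem hyp2_y (i : ℕ) (hi : i + 1 < m) (a : ι ⊕ ι → K) :
    (F.hyp2 i hi).y a = F.y (i + 1) (lft a) + F.y i (rgt a) := rfl

theorem px_hyp2 (i : ℕ) (hi : i + 1 < m) (v : E) :
    (F.hyp2 i hi).px v = Sum.elim ((F.hyp (i + 1) hi).px v)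
      ((F.hyp i (Nat.lt_of_succ_lt hi)).px v) := by
  apply hh_ext_left (θ := Φ.θ)
  intro b
  rw [Hyp.hh_px, hyp2_y, Φ.add_right, hh_sum, lft_elim, rgt_elim, Hyp.hh_px, Hyp.hh_px]
  rfl

theorem py_hyp2 (i : ℕ) (hi : i + 1 < m) (v : E) :
    (F.hyp2 i hi).py v = Sum.elim ((F.hyp (i + 1) hi).py v)
      ((F.hyp i (Nat.lt_of_succ_lt hi)).py v) := by
  apply hh_ext_left (θ := Φ.θ)
  intro b
  rw [Hyp.hh_py, hyp2_x, Φ.add_right, hh_sum, lft_elim, rgt_elim, Hyp.hh_py, Hyp.hh_py, mul_add]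
  rfl

/-- **The first block.** -/
theorem gl_succ (i : ℕ) (hi : i + 1 < m) (g : (ι → K) ≃ₗ[K] (ι → K)) :
    (F.hyp (i + 1) hi).gl g = (F.hyp2 i hi).gl (bl g 1) := by
  ext v
  rw [Hyp.gl_apply, Hyp.gl_apply, hyp2_x, hyp2_y, px_hyp2, py_hyp2, adjL_bl Φ.θθ]
  have e1 : lft (bl g 1 (Sum.elim ((F.hyp (i + 1) hi).px v)
      ((F.hyp i (Nat.lt_of_succ_lt hi)).px v)) - Sum.elim ((F.hyp (i + 1) hi).px v)
      ((F.hyp i (Nat.lt_of_succ_lt hi)).px v)) =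
      g ((F.hyp (i + 1) hi).px v) - (F.hyp (i + 1) hi).px v := rfl
  have e2 : rgt (bl g 1 (Sum.elim ((F.hyp (i + 1) hi).px v)
      ((F.hyp i (Nat.lt_of_succ_lt hi)).px v)) - Sum.elim ((F.hyp (i + 1) hi).px v)
      ((F.hyp i (Nat.lt_of_succ_lt hi)).px v)) = 0 := by
    change (F.hyp i (Nat.lt_of_succ_lt hi)).px v - (F.hyp i (Nat.lt_of_succ_lt hi)).px v = 0
    exact sub_self _
  have e3 : ∀ (c d c' d' : ι → K), lft (Sum.elim c d - Sum.elim c' d') = c - c' :=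
    fun _ _ _ _ => rfl
  have e4 : ∀ (c d c' d' : ι → K), rgt (Sum.elim c d - Sum.elim c' d') = d - d' :=
    fun _ _ _ _ => rfl
  rw [e1, e2, e3, e4, lft_elim, rgt_elim, adjL_one Φ.θθ, sub_self, map_zero, map_zero, add_zero,
    add_zero]
  rfl

/-- **The second block.** -/
theorem gl_self (i : ℕ) (hi : i + 1 < m) (g : (ι → K) ≃ₗ[K] (ι → K)) :
    (F.hyp i (Nat.lt_of_succ_lt hi)).gl g = (F.hyp2 i hi).gl (bl 1 g) := by
  ext v
  rw [Hyp.gl_apply, Hyp.gl_apply, hyp2_x, hyp2_y, px_hyp2, py_hyp2, adjL_bl Φ.θθ]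
  have e1 : rgt (bl 1 g (Sum.elim ((F.hyp (i + 1) hi).px v)
      ((F.hyp i (Nat.lt_of_succ_lt hi)).px v)) - Sum.elim ((F.hyp (i + 1) hi).px v)
      ((F.hyp i (Nat.lt_of_succ_lt hi)).px v)) =
      g ((F.hyp i (Nat.lt_of_succ_lt hi)).px v) - (F.hyp i (Nat.lt_of_succ_lt hi)).px v := rfl
  have e2 : lft (bl 1 g (Sum.elim ((F.hyp (i + 1) hi).px v)
      ((F.hyp i (Nat.lt_of_succ_lt hi)).px v)) - Sum.elim ((F.hyp (i + 1) hi).px v)
      ((F.hyp i (Nat.lt_of_succ_lt hi)).px v)) = 0 := by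
    change (F.hyp (i + 1) hi).px v - (F.hyp (i + 1) hi).px v = 0
    exact sub_self _
  have e3 : ∀ (c d c' d' : ι → K), lft (Sum.elim c d - Sum.elim c' d') = c - c' :=
    fun _ _ _ _ => rfl
  have e4 : ∀ (c d c' d' : ι → K), rgt (Sum.elim c d - Sum.elim c' d') = d - d' :=
    fun _ _ _ _ => rfl
  rw [e1, e2, e3, e4, lft_elim, rgt_elim, adjL_one Φ.θθ, sub_self, map_zero, map_zero, zero_add,
    zero_add]
  rfl

variable {i : ℕ} (hi : i + 1 < m)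

/-- An element of the general linear group of the double pair lies in the tower. -/
theorem gl2_mem (g : (ι ⊕ ι → K) ≃ₗ[K] (ι ⊕ ι → K)) : (F.hyp2 i hi).gl g ∈ F.H (i + 2) := by
  refine ⟨Hyp.gl_mem _ g, fun j hj hjm => ⟨fun a => ?_, fun a => ?_⟩⟩
  · obtain ⟨h1, h2, -, -⟩ := F.px_ne hi hjm (by omega) a
    obtain ⟨h3, h4, -, -⟩ := F.px_ne (Nat.lt_of_succ_lt hi) hjm (by omega) a
    refine Hyp.gl_w _ g ?_ ?_
    · rw [px_hyp2, h1, h3]; exact ext_lr rfl rfl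
    · rw [py_hyp2, h2, h4]; exact ext_lr rfl rfl
  · obtain ⟨-, -, h1, h2⟩ := F.px_ne hi hjm (by omega) a
    obtain ⟨-, -, h3, h4⟩ := F.px_ne (Nat.lt_of_succ_lt hi) hjm (by omega) a
    refine Hyp.gl_w _ g ?_ ?_
    · rw [px_hyp2, h1, h3]; exact ext_lr rfl rfl
    · rw [py_hyp2, h2, h4]; exact ext_lr rfl rfl

theorem H_le_Fx2 : F.H i ≤ (F.hyp2 i hi).Fx := by
  intro g hg
  have h0 := hg.2 i le_rfl (Nat.lt_of_succ_lt hi)
  have h1 := hg.2 (i + 1) (Nat.le_succ i) hi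
  refine ⟨hg.1, fun a => ?_, fun a => ?_⟩
  · rw [hyp2_x, map_add, h0.1, h1.1]
  · rw [hyp2_y, map_add, h0.2, h1.2]

theorem gl2_comm (g : (ι ⊕ ι → K) ≃ₗ[K] (ι ⊕ ι → K)) {h : E ≃ₗ[K] E} (hh : h ∈ F.H i) :
    (F.hyp2 i hi).gl g * h = h * (F.hyp2 i hi).gl g :=
  Hyp.gl_comm _ (F.H_le_Fx2 hi hh) g

theorem s_mem : F.s i hi ∈ F.H (i + 2) := F.gl2_mem hi _

theorem s_comm {h : E ≃ₗ[K] E} (hh : h ∈ F.H i) : F.s i hi * h = h * F.s i hi :=
  F.gl2_comm hi _ hh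

theorem s_mul_s : F.s i hi * F.s i hi = 1 := by
  unfold s
  rw [← map_mul, swL_mul_swL, map_one]

theorem s_inv : (F.s i hi)⁻¹ = F.s i hi := inv_eq_of_mul_eq_one_left (F.s_mul_s hi)

theorem s_gl (g : (ι → K) ≃ₗ[K] (ι → K)) :
    F.s i hi * (F.hyp i (Nat.lt_of_succ_lt hi)).gl g * F.s i hi = (F.hyp (i + 1) hi).gl g := by
  rw [F.gl_self i hi, F.gl_succ i hi]
  unfold s
  rw [← map_mul, ← map_mul, swL_bl, mul_assoc, swL_mul_swL, mul_one]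

theorem s_gl' (g : (ι → K) ≃ₗ[K] (ι → K)) :
    F.s i hi * (F.hyp (i + 1) hi).gl g * F.s i hi = (F.hyp i (Nat.lt_of_succ_lt hi)).gl g := by
  rw [F.gl_succ i hi, F.gl_self i hi]
  unfold s
  rw [← map_mul, ← map_mul, swL_bl, mul_assoc, swL_mul_swL, mul_one]

theorem s_x_succ (a : ι → K) : F.s i hi (F.x (i + 1) a) = F.x i a := by
  have h1 : F.x (i + 1) a = (F.hyp2 i hi).x (Sum.elim a 0) := by
    rw [hyp2_x, lft_elim, rgt_elim, map_zero, add_zero]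
  unfold s
  rw [h1, Hyp.gl_x, hyp2_x, lft_swL, rgt_swL, lft_elim, rgt_elim, map_zero, zero_add]

theorem s_x_self (a : ι → K) : F.s i hi (F.x i a) = F.x (i + 1) a := by
  have h1 : F.x i a = (F.hyp2 i hi).x (Sum.elim 0 a) := by
    rw [hyp2_x, lft_elim, rgt_elim, map_zero, zero_add]
  unfold s
  rw [h1, Hyp.gl_x, hyp2_x, lft_swL, rgt_swL, lft_elim, rgt_elim, map_zero, add_zero]

theorem s_y_succ (a : ι → K) : F.s i hi (F.y (i + 1) a) = F.y i a := by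
  have h1 : F.y (i + 1) a = (F.hyp2 i hi).y (Sum.elim a 0) := by
    rw [hyp2_y, lft_elim, rgt_elim, map_zero, add_zero]
  unfold s
  rw [h1, Hyp.gl_y, adjL_swL Φ.θθ, hyp2_y, lft_swL, rgt_swL, lft_elim, rgt_elim, map_zero,
    zero_add]

theorem s_y_self (a : ι → K) : F.s i hi (F.y i a) = F.y (i + 1) a := by
  have h1 : F.y i a = (F.hyp2 i hi).y (Sum.elim 0 a) := by
    rw [hyp2_y, lft_elim, rgt_elim, map_zero, zero_add]
  unfold s
  rw [h1, Hyp.gl_y, adjL_swL Φ.θθ, hyp2_y, lft_swL, rgt_swL, lft_elim, rgt_elim, map_zero,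
    add_zero]

theorem s_w {v : E} (h1 : (F.hyp (i + 1) hi).px v = 0) (h2 : (F.hyp (i + 1) hi).py v = 0)
    (h3 : (F.hyp i (Nat.lt_of_succ_lt hi)).px v = 0)
    (h4 : (F.hyp i (Nat.lt_of_succ_lt hi)).py v = 0) : F.s i hi v = v := by
  refine Hyp.gl_w _ _ ?_ ?_
  · rw [px_hyp2, h1, h3]; exact ext_lr rfl rfl
  · rw [py_hyp2, h2, h4]; exact ext_lr rfl rfl

theorem px_s_succ (v : E) : (F.hyp (i + 1) hi).px (F.s i hi v) =
    (F.hyp i (Nat.lt_of_succ_lt hi)).px v := by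
  have h := Hyp.px_gl (F.hyp2 i hi) swL v
  rw [px_hyp2, px_hyp2] at h
  exact congrArg lft h

theorem px_s_self (v : E) : (F.hyp i (Nat.lt_of_succ_lt hi)).px (F.s i hi v) =
    (F.hyp (i + 1) hi).px v := by
  have h := Hyp.px_gl (F.hyp2 i hi) swL v
  rw [px_hyp2, px_hyp2] at h
  exact congrArg rgt h

theorem py_s_succ (v : E) : (F.hyp (i + 1) hi).py (F.s i hi v) =
    (F.hyp i (Nat.lt_of_succ_lt hi)).py v := by
  have h := Hyp.py_gl (F.hyp2 i hi) swL v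
  rw [py_hyp2, py_hyp2, adjL_swL Φ.θθ] at h
  exact congrArg lft h

theorem py_s_self (v : E) : (F.hyp i (Nat.lt_of_succ_lt hi)).py (F.s i hi v) =
    (F.hyp (i + 1) hi).py v := by
  have h := Hyp.py_gl (F.hyp2 i hi) swL v
  rw [py_hyp2, py_hyp2, adjL_swL Φ.θθ] at h
  exact congrArg rgt h

/-- **The swaps are exchanged.** -/
theorem s_tt : F.s i hi * (F.hyp i (Nat.lt_of_succ_lt hi)).tt * F.s i hi =
    (F.hyp (i + 1) hi).tt := by
  ext v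
  change F.s i hi ((F.hyp i (Nat.lt_of_succ_lt hi)).tt (F.s i hi v)) = (F.hyp (i + 1) hi).tt v
  rw [Hyp.tt_apply, Hyp.tt_apply, px_s_self, py_s_self, map_add, map_add]
  have h1 : F.s i hi (F.s i hi v) = v := LinearEquiv.congr_fun (F.s_mul_s hi) v
  rw [h1]
  change v + F.s i hi (F.x i _) + F.s i hi (F.y i _) = v + F.x (i + 1) _ + F.y (i + 1) _
  rw [s_x_self, s_y_self]

theorem s_tt' : F.s i hi * (F.hyp (i + 1) hi).tt * F.s i hi =
    (F.hyp i (Nat.lt_of_succ_lt hi)).tt := by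
  rw [← s_tt, ← mul_assoc, ← mul_assoc, s_mul_s, one_mul, mul_assoc, s_mul_s, mul_one]

end Frame

end Vale.Agent.P180.H393.Fm
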