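import Vale.Agent.P180.R2.H471.Hc1
import Vale.Agent.P180.R2.H12.SlW

/-!
P180 H393: irreducible characters as functions; orthogonality and completeness.
-/

set_option linter.all false

namespace Vale.Agent.P180.H393

open Vale.Agent.P180.R2.H471.Hc Vale.Agent.P180.R2.H12.Sl Finset

universe u

/-- an irreducible character, as a function -/
def IsIr (K : Type u) [Field K] (H : Type) [Group H] [Fintype H] (χ : H → K) : Prop :=
  IsCh K H χ ∧ ip χ χ = 1

/-- class functions -/
def IsCF {K : Type u} {H : Type} [Group H] (θ : H → K) : Prop := ∀ x y, θ (x * y * x⁻¹) = θ y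

section

variable {K : Type u} [Field K] {H : Type} [Group H] [Fintype H]

/-- the value of a function on the group at an element of the group algebra -/
noncomputable def ev (χ : H → K) (x : MonoidAlgebra K H) : K := ∑ h : H, x.coeff h * χ h

theorem IsCh.cf {φ : H → K} (h : IsCh K H φ) : IsCF φ := fun x y => h.conj x y

theorem eq_sum_single (x : MonoidAlgebra K H) :
    x = ∑ h : H, x.coeff h • MonoidAlgebra.single h (1 : K) := by
  classical
  apply MonoidAlgebra.coeff_injective
  ext g
  rw [MonoidAlgebra.coeff_sum, Finsupp.finset_sum_apply, Finset.sum_eq_single g]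
  · rw [MonoidAlgebra.coeff_smul, Finsupp.smul_apply, MonoidAlgebra.coeff_single,
      Finsupp.single_eq_same, smul_eq_mul, mul_one]
  · intro b _ hb
    rw [MonoidAlgebra.coeff_smul, Finsupp.smul_apply, MonoidAlgebra.coeff_single,
      Finsupp.single_eq_of_ne (Ne.symm hb), smul_zero]
  · intro h
    exact absurd (Finset.mem_univ g) h

theorem ev_eq (T : MonoidAlgebra K H →ₗ[K] K) (x : MonoidAlgebra K H) :
    ev (fun h => T (MonoidAlgebra.single h 1)) x = T x := by
  conv_rhs => rw [eq_sum_single x]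
  rw [map_sum, ev]
  exact Finset.sum_congr rfl fun h _ => by rw [map_smul, smul_eq_mul]

end

open scoped Classical in
theorem tf_single {K : Type u} [Field K] {H : Type} [Group H] [Fintype H] (a b : H) :
    tf (MonoidAlgebra.single a (1 : K)) (MonoidAlgebra.single b 1) =
    ∑ h : H, if h⁻¹ * a * h = b⁻¹ then 1 else 0 := by
  unfold tf
  refine Finset.sum_congr rfl fun h _ => ?_
  rw [MonoidAlgebra.single_mul_single, MonoidAlgebra.single_mul_single, one_mul, one_mul,
    MonoidAlgebra.coeff_single, Finsupp.single_apply]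
  refine if_congr ?_ rfl rfl
  constructor
  · intro h1
    rw [eq_inv_iff_mul_eq_one]
    calc h⁻¹ * a * h * b = h⁻¹ * (a * h * b) := by group
      _ = 1 := by rw [h1, inv_mul_cancel]
  · intro h1
    calc a * h * b = h * (h⁻¹ * a * h) * b := by group
      _ = h := by rw [h1, mul_assoc, inv_mul_cancel, mul_one]

section

variable {K : Type u} [Field K] [IsAlgClosed K] [CharZero K] {H : Type} [Group H] [Fintype H]

theorem exists_irr0 : ∃ (n : ℕ) (t : Fin n → (MonoidAlgebra K H →ₗ[K] K)),
    (∀ x y, tf x y = ∑ i, t i x * t i y) ∧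
    (∀ i, IsCh K H (fun h => t i (MonoidAlgebra.single h 1))) ∧
    (∀ i, ∃ x, ∀ j, t j x = if j = i then 1 else 0) ∧
    (∀ f : MonoidAlgebra K H, f * f = f → ∀ i, ∃ m : ℕ, t i f = m) := by
  classical
  have : NeZero (Nat.card H : K) := ⟨by
    have : Nat.card H ≠ 0 := Nat.card_pos.ne'
    exact_mod_cast this⟩
  have hfin : FiniteDimensional K (MonoidAlgebra K H) :=
    Module.Finite.equiv (MonoidAlgebra.coeffLinearEquiv K (M := H) (S := K)).symm
  have hss : IsSemisimpleRing (MonoidAlgebra K H) := by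
    unfold IsSemisimpleRing
    infer_instance
  obtain ⟨n, d, hd, ⟨e⟩⟩ :=
    IsSemisimpleRing.exists_algEquiv_pi_matrix_of_isAlgClosed K (MonoidAlgebra K H)
  refine ⟨n, fun i => (Matrix.traceLinearMap (Fin (d i)) K K) ∘ₗ
    (LinearMap.proj i) ∘ₗ e.toLinearMap, ?_, ?_, ?_, ?_⟩
  · intro x y
    rw [tf_eq_trace, trace_conj_LR e, trace_LR_pi]
    rfl
  · intro i
    let ρ : Representation K H (Fin (d i) → K) :=
      { toFun := fun h => Matrix.toLin' (e (MonoidAlgebra.single h 1) i)
        map_one' := by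
          have : (MonoidAlgebra.single (1 : H) (1 : K)) = 1 := rfl
          rw [this, map_one, Pi.one_apply, Matrix.toLin'_one]
          rfl
        map_mul' := by
          intro a b
          have : (MonoidAlgebra.single (a * b) (1 : K)) =
            MonoidAlgebra.single a 1 * MonoidAlgebra.single b 1 := by
            rw [MonoidAlgebra.single_mul_single, one_mul]
          rw [this, map_mul, Pi.mul_apply, Matrix.toLin'_mul]
          rfl }
    refine ⟨Fin (d i) → K, inferInstance, inferInstance, inferInstance, ρ, fun h => ?_⟩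
    exact Matrix.trace_toLin'_eq _
  · intro i
    have := hd i
    refine ⟨e.symm (Pi.single i (Matrix.single 0 0 1)), fun j => ?_⟩
    change Matrix.trace (e (e.symm _) j) = _
    rw [e.apply_symm_apply]
    by_cases h : j = i
    · subst h
      rw [Pi.single_eq_same, if_pos rfl, Matrix.trace_single_eq_same]
    · rw [Pi.single_eq_of_ne h, if_neg h, Matrix.trace_zero]
  · intro f hf i
    have h1 : e f i * e f i = e f i := by
      rw [← Pi.mul_apply, ← map_mul, hf]
    have h2 : ∀ x, (Matrix.toLin' (e f i)) ((Matrix.toLin' (e f i)) x) =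
        Matrix.toLin' (e f i) x := by
      intro x
      rw [← LinearMap.comp_apply, ← Matrix.toLin'_mul, h1]
    refine ⟨_, Eq.trans ?_ (trace_idem h2)⟩
    rw [Matrix.trace_toLin'_eq]
    rfl

/-- **Irreducible characters**: orthogonality, completeness, integrality and the trace form. -/
theorem exists_irr : ∃ (n : ℕ) (χ : Fin n → H → K), (∀ i, IsCh K H (χ i)) ∧
    (∀ i j, ip (χ i) (χ j) = if i = j then 1 else 0) ∧
    (∀ θ : H → K, IsCF θ → ∀ a, θ a = ∑ i, ip θ (χ i) * χ i a) ∧
    (∀ v : MonoidAlgebra K H, v * v = v → ∀ i, ∃ m : ℕ, ev (χ i) v = m) ∧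
    (∀ x y, tf x y = ∑ i, ev (χ i) x * ev (χ i) y) := by
  classical
  obtain ⟨n, t, h1, h2, h3, h4⟩ := exists_irr0 (K := K) (H := H)
  set χ : Fin n → H → K := fun i h => t i (MonoidAlgebra.single h 1) with hχ
  have hev : ∀ i x, ev (χ i) x = t i x := fun i x => ev_eq (t i) x
  have hsum : ∀ a b, ∑ i, χ i a * χ i b = ∑ h : H, if h⁻¹ * a * h = b⁻¹ then 1 else 0 := by
    intro a b
    rw [← tf_single, h1]
  have hcard : (Nat.card H : K) ≠ 0 := card_ne (K := K) (H := H)
  have hcomp : ∀ θ : H → K, IsCF θ → ∀ a, θ a = ∑ i, ip θ (χ i) * χ i a := by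
    intro θ hθ a
    have h5 : ∑ b, θ b * ∑ i, χ i a * χ i b⁻¹ = (Nat.card H : K) * θ a := by
      have h6 : ∀ b, θ b * ∑ i, χ i a * χ i b⁻¹ = ∑ h : H, if h⁻¹ * a * h = b then θ b else 0 := by
        intro b
        rw [hsum, Finset.mul_sum]
        refine Finset.sum_congr rfl fun h _ => ?_
        rw [inv_inv, mul_ite, mul_one, mul_zero]
      rw [Finset.sum_congr rfl fun b _ => h6 b, Finset.sum_comm]
      have h7 : ∀ h : H, (∑ b, if h⁻¹ * a * h = b then θ b else 0) = θ a := by
        intro h
        rw [Finset.sum_ite_eq, if_pos (Finset.mem_univ _)]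
        have := hθ h⁻¹ a
        rwa [inv_inv] at this
      rw [Finset.sum_congr rfl fun h _ => h7 h, Finset.sum_const, Finset.card_univ,
        nsmul_eq_mul, Nat.card_eq_fintype_card]
    have h6 : ∑ b, θ b * ∑ i, χ i a * χ i b⁻¹ = ∑ i, (∑ b, θ b * χ i b⁻¹) * χ i a := by
      simp only [Finset.mul_sum, Finset.sum_mul]
      rw [Finset.sum_comm]
      refine Finset.sum_congr rfl fun i _ => Finset.sum_congr rfl fun b _ => ?_
      ring
    have h7 : θ a = (Nat.card H : K)⁻¹ * ∑ i, (∑ b, θ b * χ i b⁻¹) * χ i a := by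
      rw [← h6, h5, inv_mul_cancel_left₀ hcard]
    rw [h7, Finset.mul_sum]
    refine Finset.sum_congr rfl fun i _ => ?_
    rw [ip, mul_assoc]
  refine ⟨n, χ, h2, ?_, hcomp, fun v hv i => by rw [hev]; exact h4 v hv i, fun x y => by
    rw [h1]; exact Finset.sum_congr rfl fun i _ => by rw [hev, hev]⟩
  intro i j
  obtain ⟨x, hx⟩ := h3 j
  have h5 : t i x = ∑ l, ip (χ i) (χ l) * t l x := by
    rw [← hev i x]
    have h6 : ∀ l, t l x = ev (χ l) x := fun l => (hev l x).symm
    rw [Finset.sum_congr rfl fun l _ => by rw [h6 l]]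
    unfold ev
    simp only [Finset.mul_sum]
    rw [Finset.sum_comm]
    refine Finset.sum_congr rfl fun h _ => ?_
    conv_lhs => rw [hcomp (χ i) (IsCh.cf (h2 i)) h]
    rw [Finset.mul_sum]
    exact Finset.sum_congr rfl fun l _ => by ring
  rw [hx i, Finset.sum_congr rfl fun l _ => by rw [hx l]] at h5
  simp only [mul_ite, mul_one, mul_zero, Finset.sum_ite_eq', Finset.mem_univ, if_true] at h5
  exact h5.symm

end

end Vale.Agent.P180.H393
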