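import Vale.Agent.P180.H393.Fr2
import Vale.Agent.P180.H19.AtwoB

/-!
P180 H393: the elements of the tower of a frame.
-/

set_option linter.all false

namespace Vale.Agent.P180.H393.Fm.Frame

open Module Vale.Agent.P180 Vale.Agent.P180.R2.H854 Vale.Agent.P180.R2.H799
  Vale.Agent.P180.R2.H799.BN Vale.Agent.P180.H19.Atwo

universe u

variable {k : Type u} [Field k] {K E : Type} [Field K] [AddCommGroup E] [Module K E]
  [Finite (E ≃ₗ[K] E)] {Φ : HForm K E} {ι : Type} [Fintype ι] [DecidableEq ι] {m : ℕ}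
  (F : Frame Φ ι m) (ε : MonoidAlgebra k ((ι → K) ≃ₗ[K] (ι → K)))

/-- the idempotent of level `i` -/
noncomputable def EE (i : ℕ) : MonoidAlgebra k (E ≃ₗ[K] E) :=
  if hi : i < m then av k (F.U i hi) * mp (F.hyp i hi).gl ε else 0

theorem EE_eq {i : ℕ} (hi : i < m) :
    F.EE ε i = av k (F.U i hi) * mp (F.hyp i hi).gl ε := by
  unfold EE
  rw [dif_pos hi]

/-- the exchange element -/
noncomputable def TT (i : ℕ) : MonoidAlgebra k (E ≃ₗ[K] E) :=
  if hi : i + 1 < m then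
    F.EE ε (i + 1) * MonoidAlgebra.single (F.s i hi) 1 * F.EE ε (i + 1) else 0

theorem TT_eq {i : ℕ} (hi : i + 1 < m) :
    F.TT ε i = F.EE ε (i + 1) * MonoidAlgebra.single (F.s i hi) 1 * F.EE ε (i + 1) := by
  unfold TT
  rw [dif_pos hi]

/-- the swap of level `i`, with a fixed element of the general linear group -/
def tau (g0 : (ι → K) ≃ₗ[K] (ι → K)) (i : ℕ) : E ≃ₗ[K] E :=
  if hi : i < m then (F.hyp i hi).tt * (F.hyp i hi).gl g0 else 1

theorem tau_eq (g0 : (ι → K) ≃ₗ[K] (ι → K)) {i : ℕ} (hi : i < m) :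
    F.tau g0 i = (F.hyp i hi).tt * (F.hyp i hi).gl g0 := by
  unfold tau
  rw [dif_pos hi]

/-- the swap element, selfdual case -/
noncomputable def XX (g0 : (ι → K) ≃ₗ[K] (ι → K)) (i : ℕ) : MonoidAlgebra k (E ≃ₗ[K] E) :=
  F.EE ε i * MonoidAlgebra.single (F.tau g0 i) 1 * F.EE ε i

/-- the opposite radical -/
def Um (i : ℕ) (hi : i < m) : Subgroup (E ≃ₗ[K] E) := conjS (F.hyp i hi).tt (F.U i hi)

/-- the swap element, other case -/
noncomputable def XN (i : ℕ) : MonoidAlgebra k (E ≃ₗ[K] E) :=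
  if hi : i < m then F.EE ε i * av k (F.Um i hi) * F.EE ε i else 0

theorem XN_eq {i : ℕ} (hi : i < m) : F.XN ε i = F.EE ε i * av k (F.Um i hi) * F.EE ε i := by
  unfold XN
  rw [dif_pos hi]

theorem s_tau (g0 : (ι → K) ≃ₗ[K] (ι → K)) {i : ℕ} (hi : i + 1 < m) :
    F.s i hi * F.tau g0 i * F.s i hi = F.tau g0 (i + 1) := by
  rw [F.tau_eq g0 (Nat.lt_of_succ_lt hi), F.tau_eq g0 hi, ← F.s_tt hi, ← F.s_gl hi g0]
  have h := F.s_mul_s hi
  calc F.s i hi * ((F.hyp i (Nat.lt_of_succ_lt hi)).tt * (F.hyp i (Nat.lt_of_succ_lt hi)).gl g0) *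
        F.s i hi = F.s i hi * (F.hyp i (Nat.lt_of_succ_lt hi)).tt * 1 *
          (F.hyp i (Nat.lt_of_succ_lt hi)).gl g0 * F.s i hi := by group
    _ = F.s i hi * (F.hyp i (Nat.lt_of_succ_lt hi)).tt * (F.s i hi * F.s i hi) *
          (F.hyp i (Nat.lt_of_succ_lt hi)).gl g0 * F.s i hi := by rw [h]
    _ = _ := by group

theorem tau_mem (g0 : (ι → K) ≃ₗ[K] (ι → K)) {i : ℕ} (hi : i < m) : F.tau g0 i ∈ F.H (i + 1) := by
  rw [F.tau_eq g0 hi]
  exact (F.H (i + 1)).mul_mem (F.tt_mem_H hi) (F.gl_mem_H hi g0)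

theorem tau_comm (g0 : (ι → K) ≃ₗ[K] (ι → K)) {i : ℕ} (hi : i < m) {h : E ≃ₗ[K] E}
    (hh : h ∈ F.H i) : F.tau g0 i * h = h * F.tau g0 i := by
  rw [F.tau_eq g0 hi, mul_assoc, F.gl_comm_H hi g0 hh, ← mul_assoc, F.tt_comm_H hi hh, mul_assoc]

end Vale.Agent.P180.H393.Fm.Frame
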