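import Vale.Agent.P180.H393.Om

/-!
P180 H393: the structure constants of Harish-Chandra restriction.
-/

set_option linter.all false

namespace Vale.Agent.P180.H393

open Vale.Agent.P180.R2.H471.Hc Finset

universe u

section

variable {K : Type u} [Field K] {F : Type} [Field F] [Finite F]
variable {A B A' B' : Type} [AddCommGroup A] [Module F A] [AddCommGroup B] [Module F B]
  [AddCommGroup A'] [Module F A'] [AddCommGroup B'] [Module F B']

omit [Finite F] in
theorem cg_sk (eA : A ≃ₗ[F] A') (eB : B ≃ₗ[F] B') (a : A ≃ₗ[F] A) (b : B ≃ₗ[F] B)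
    (f : A →ₗ[F] B) : cg (eA.prodCongr eB) (sk a b f) = sk (cg eA a) (cg eB b)
      ((eB : B →ₗ[F] B') ∘ₗ f ∘ₗ (eA.symm : A' →ₗ[F] A)) := by
  apply LinearEquiv.ext
  intro x
  rw [cg_apply, sk_apply, sk_apply]
  refine Prod.ext rfl ?_
  change eB (b (eB.symm x.2) + f (eA.symm x.1)) = _
  rw [map_add]
  rfl

variable [Finite A] [Finite B] [Finite A'] [Finite B']

omit [Finite F] in
theorem Res_cg (eA : A ≃ₗ[F] A') (eB : B ≃ₗ[F] B') (θ : ((A' × B') ≃ₗ[F] (A' × B')) → K)
    (a : A ≃ₗ[F] A) (b : B ≃ₗ[F] B) :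
    Res θ (cg eA a) (cg eB b) = Res (fun g => θ (cg (eA.prodCongr eB) g)) a b := by
  let E : (A →ₗ[F] B) ≃ (A' →ₗ[F] B') :=
    { toFun := fun f => (eB : B →ₗ[F] B') ∘ₗ f ∘ₗ (eA.symm : A' →ₗ[F] A)
      invFun := fun f => (eB.symm : B' →ₗ[F] B) ∘ₗ f ∘ₗ (eA : A →ₗ[F] A')
      left_inv := fun f => by ext y; simp
      right_inv := fun f => by ext y; simp }
  rw [Res, Res, ← Nat.card_congr E]
  congr 1
  rw [← Equiv.sum_comp E]
  refine Finset.sum_congr rfl fun f _ => ?_
  rw [cg_sk]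
  rfl

omit [Finite F] in
theorem mu_cg (eA : A ≃ₗ[F] A') (eB : B ≃ₗ[F] B') (α : (A' ≃ₗ[F] A') → K)
    (β : (B' ≃ₗ[F] B') → K) (γ : ((A' × B') ≃ₗ[F] (A' × B')) → K) :
    mu (fun g => α (cg eA g)) (fun g => β (cg eB g)) (fun g => γ (cg (eA.prodCongr eB) g)) =
      mu α β γ := by
  rw [mu, mu, Nat.card_congr (cg eA).toEquiv, Nat.card_congr (cg eB).toEquiv]
  congr 1
  rw [← Equiv.sum_comp (cg eA).toEquiv]
  refine Finset.sum_congr rfl fun a _ => ?_
  rw [← Equiv.sum_comp (cg eB).toEquiv]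
  refine Finset.sum_congr rfl fun b _ => ?_
  change _ = Res γ (cg eA a) (cg eB b) * α (cg eA a)⁻¹ * β (cg eB b)⁻¹
  rw [Res_cg, map_inv, map_inv]

variable [IsAlgClosed K] [CharZero K]

theorem exists_cc (a b w : Om K F) : ∃ m : ℕ,
    mu (X a (Fin a.deg → F)) (X b (Fin b.deg → F)) (X w ((Fin a.deg → F) × (Fin b.deg → F))) = m :=
  mu_nat (X_isCh a) (X_isCh b) (X_isCh w)

/-- the structure constants; `a` belongs to the quotient, `b` to the subspace -/
noncomputable def cc (a b w : Om K F) : ℕ := Classical.choose (exists_cc a b w)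

theorem cc_spec (a b w : Om K F) : (cc a b w : K) =
    mu (X a (Fin a.deg → F)) (X b (Fin b.deg → F)) (X w ((Fin a.deg → F) × (Fin b.deg → F))) :=
  (Classical.choose_spec (exists_cc a b w)).symm

theorem cc_eq {a b : Om K F} (w : Om K F) (hA : Module.finrank F A = a.deg)
    (hB : Module.finrank F B = b.deg) :
    (cc a b w : K) = mu (X a A) (X b B) (X w (A × B)) := by
  obtain ⟨eA⟩ := (nonempty_iff (V := A) a.deg).mpr hA
  obtain ⟨eB⟩ := (nonempty_iff (V := B) b.deg).mpr hB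
  rw [cc_spec, ← mu_cg eA eB]
  congr 1
  · funext g; exact X_cg a eA g
  · funext g; exact X_cg b eB g
  · funext g; exact X_cg w _ g

theorem finrank_prod' : Module.finrank F (A × B) = Module.finrank F A + Module.finrank F B := by
  have : Module.Finite F A := Module.Finite.of_finite
  have : Module.Finite F B := Module.Finite.of_finite
  exact Module.finrank_prod

theorem cc_deg {a b w : Om K F} (h : cc a b w ≠ 0) : w.deg = a.deg + b.deg := by
  by_contra hne
  apply h
  have h1 : (cc a b w : K) = 0 := by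
    rw [cc_spec, mu]
    have h2 : ∀ g, X w ((Fin a.deg → F) × (Fin b.deg → F)) g = 0 := fun g => by
      apply X_zero
      rw [finrank_prod', Module.finrank_fin_fun, Module.finrank_fin_fun]
      exact fun h => hne h.symm
    simp only [Res, h2, Finset.sum_const_zero, mul_zero, zero_mul]
  exact_mod_cast h1

omit [IsAlgClosed K] [CharZero K] [Finite A'] [Finite B'] [Finite F] in
theorem Res_cf_left {γ : ((A × B) ≃ₗ[F] (A × B)) → K} (hγ : IsCF γ) (b : B ≃ₗ[F] B) :
    IsCF (fun a => Res γ a b) := by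
  intro x y
  let E : (A →ₗ[F] B) ≃ (A →ₗ[F] B) :=
    { toFun := fun f => f ∘ₗ ((x⁻¹ : A ≃ₗ[F] A) : A →ₗ[F] A)
      invFun := fun f => f ∘ₗ ((x : A ≃ₗ[F] A) : A →ₗ[F] A)
      left_inv := fun f => by
        ext y
        exact congrArg f (x.symm_apply_apply y)
      right_inv := fun f => by
        ext y
        exact congrArg f (x.apply_symm_apply y) }
  simp only [Res]
  congr 1
  rw [← Equiv.sum_comp E]
  refine Finset.sum_congr rfl fun f _ => ?_
  rw [← hγ (sk x 1 0) (sk y b f), sk_inv, sk_mul, sk_mul]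
  congr 1
  rw [inv_one, one_mul, mul_one]
  congr 1
  ext z
  change f (x⁻¹ z) = b (-(0 : B)) + (f (x⁻¹ z) + 0)
  rw [neg_zero, map_zero, zero_add, add_zero]

omit [IsAlgClosed K] [CharZero K] [Finite A'] [Finite B'] [Finite F] in
theorem Res_cf_right {γ : ((A × B) ≃ₗ[F] (A × B)) → K} (hγ : IsCF γ) (a : A ≃ₗ[F] A) :
    IsCF (fun b => Res γ a b) := by
  intro x y
  let E : (A →ₗ[F] B) ≃ (A →ₗ[F] B) :=
    { toFun := fun f => ((x : B ≃ₗ[F] B) : B →ₗ[F] B) ∘ₗ f
      invFun := fun f => ((x⁻¹ : B ≃ₗ[F] B) : B →ₗ[F] B) ∘ₗ f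
      left_inv := fun f => by
        ext y
        exact x.symm_apply_apply _
      right_inv := fun f => by
        ext y
        exact x.apply_symm_apply _ }
  simp only [Res]
  congr 1
  rw [← Equiv.sum_comp E]
  refine Finset.sum_congr rfl fun f _ => ?_
  rw [← hγ (sk 1 x 0) (sk a y f), sk_inv, sk_mul, sk_mul]
  congr 1
  rw [inv_one, one_mul, mul_one]
  congr 1
  ext z
  change x (f z) = (x * y) (-(x⁻¹ (0 : B))) + (x (f z) + 0)
  rw [map_zero, neg_zero, map_zero, zero_add, add_zero]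

/-- **The restriction of an irreducible character.** -/
theorem res_eq (w : Om K F) (g : A ≃ₗ[F] A) (h : B ≃ₗ[F] B) :
    Res (X w (A × B)) g h = ∑ a ∈ OmS K F (Module.finrank F A),
      ∑ b ∈ OmS K F (Module.finrank F B), (cc a b w : K) * X a A g * X b B h := by
  have hγ : IsCF (X w (A × B)) := IsCh.cf (X_isCh w)
  rw [expand (Res_cf_left hγ h) g]
  refine Finset.sum_congr rfl fun a ha => ?_
  -- the coefficient is a class function of `h`
  have h1 : IsCF (fun h => ip (fun a' => Res (X w (A × B)) a' h) (X a A)) := by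
    intro x y
    have h2 : ∀ a', Res (X w (A × B)) a' (x * y * x⁻¹) = Res (X w (A × B)) a' y := fun a' =>
      Res_cf_right hγ a' x y
    simp only [h2]
  rw [expand h1 h, Finset.sum_mul]
  refine Finset.sum_congr rfl fun b hb => ?_
  have h3 : ip (fun h => ip (fun a' => Res (X w (A × B)) a' h) (X a A)) (X b B) = (cc a b w : K) := by
    rw [cc_eq (A := A) (B := B) w (mem_OmS.mp ha).symm (mem_OmS.mp hb).symm, mu, ip]
    simp only [ip]
    rw [mul_comm (Nat.card (A ≃ₗ[F] A) : K)⁻¹, mul_assoc]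
    congr 1
    have e1 : ∀ b', (Nat.card (A ≃ₗ[F] A) : K)⁻¹ *
        (∑ a', Res (X w (A × B)) a' b' * X a A a'⁻¹) * X b B b'⁻¹ =
        (Nat.card (A ≃ₗ[F] A) : K)⁻¹ *
          ∑ a', Res (X w (A × B)) a' b' * X a A a'⁻¹ * X b B b'⁻¹ := fun b' => by
      rw [mul_assoc, Finset.sum_mul]
    rw [Finset.sum_congr rfl fun b' _ => e1 b', ← Finset.mul_sum, Finset.sum_comm]
  rw [h3]
  ring

end

end Vale.Agent.P180.H393
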