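import Vale.Agent.P180.H393.FixD
import Vale.Agent.P180.H568.OutM

set_option linter.all false

/-!
P180: the corner property of components of type `SL_d(K)` if the defect group fixes the `p`-elements
over its intersection with the component.
-/

namespace Vale.Agent.P180.H393

open Module Vale.Agent.P180 Vale.Agent.P180.H768.Gd Vale.Agent.P180.R2 Vale.Agent.P180.R2.H365
  Vale.Agent.P180.R2.H47 Vale.Agent.P180.R2.H954
open Vale.Agent.P180.H568.Out (cjS inf_eq_of_below)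
open Vale.Agent.P180.H392 (OutStmt)

universe u

/-- A `p`-group with these properties acts through the general linear group. -/
def ThruStmt : Prop :=
  ∀ (p : ℕ) [Fact p.Prime] (k : Type u) [Field k] [IsAlgClosed k] [CharP k p] (K : Type) [Field K]
    [Finite K] (d : ℕ) (G : Type) [Group G] [Finite G] (R L : Subgroup G)
    (π : SpecialLinearGroup K (Fin d → K) →* L) (e z : MonoidAlgebra k G), IsPGroup p R → p ≠ 2 →
    (∀ x ∈ R, ∀ s ∈ L, x * s * x⁻¹ ∈ L) → 3 ≤ d → ¬ p ∣ Nat.card K →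
    Function.Surjective π → π.ker ≤ Subgroup.center _ →
    (∀ x y : SpecialLinearGroup K (Fin d → K), ((π x : L) : G) ∈ R → ((π y : L) : G) ∈ R →
      (fun t => x * t * x⁻¹ * t⁻¹)^[p - 2] y = 1) →
    (∀ r ∈ R, ∃ β : MulAut (SpecialLinearGroup K (Fin d → K)),
      (∀ s, ((π (β s) : L) : G) = r * (π s : L) * r⁻¹) ∧
        ∀ s, (∃ j, s ^ p ^ j = 1) → ((π s : L) : G) ∈ R → β s = s) →
    (∃ x ∈ R, x ∈ L ∧ ¬ ∀ l ∈ L, x * l = l * x) → IsBlockOf L e → br R e ≠ 0 →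
    z ∈ SubAlg k L → z ∈ Fix (cj k G) (L ⊓ R) → e = tr (cj k G) (L ⊓ R) L z →
    ∀ r ∈ R, ∃ g : (Fin d → K) ≃ₗ[K] (Fin d → K), ∀ x,
      ((π (cjS g x) : L) : G) = r * (π x : L) * r⁻¹

variable {k : Type u} [Field k] [IsAlgClosed k] {p : ℕ} [Fact p.Prime] [CharP k p]
  {C : ℕ → ℕ → ℕ → ℕ} {n m : ℕ}

/-- **The corner property.** -/
theorem corP_fix (hO : OutStmt.{u} C) (hT : ThruStmt.{u}) (h2 : p ≠ 2) {K : Type} [Field K]
    [Finite K] {d : ℕ} (hd : 3 ≤ d) (hpK : ¬ p ∣ Nat.card K)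
    (hm : ∀ j, p ^ j ∣ d → p ^ j ∣ Nat.card K - 1 → p ^ j ≤ m) {G : Type} [Group G] [Finite G]
    {D L : Subgroup G} (hD : IsPGroup p D) (hDn : Nat.card D ≤ n)
    {π : SpecialLinearGroup K (Fin d → K) →* L} (hπ : Function.Surjective π)
    (hk : π.ker ≤ Subgroup.center _) (hfix : FixE p π (Gam D L) (D.subgroupOf L))
    (heng : Eng (max 1 (p - 2)) ((D.subgroupOf L).comap π)) {b : MonoidAlgebra k G}
    (hr : ∃ x ∈ D, x ∈ L ∧ ¬ ∀ y ∈ L, x * y = y * x) (hbF : b ∈ Fix (cj k G) ⊤)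
    (hb : br D b ≠ 0) : CorP p (C p n m) b D L := by
  rintro R hRD hn e he heR hbr ⟨z, hz, hzF, hez⟩ hez'
  have hinf : L ⊓ R = L ⊓ D := inf_eq_of_below hD hRD hbF hb he hzF hez
  have hR : IsPGroup p R := hD.to_le hRD
  have hRn : Nat.card R ≤ n :=
    (Nat.card_le_card_of_injective _ (Subgroup.inclusion_injective hRD)).trans hDn
  have hnN : ∀ r ∈ R, r ∈ Subgroup.normalizer (L : Set G) := by
    intro r hr
    rw [Subgroup.mem_normalizer_iff]
    intro s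
    constructor
    · exact hn r hr s
    · intro hs
      have := hn r⁻¹ (R.inv_mem hr) _ hs
      simpa [mul_assoc] using this
  have hβ : ∀ r ∈ R, ∃ β : MulAut (SpecialLinearGroup K (Fin d → K)),
      (∀ s, ((π (β s) : L) : G) = r * (π s : L) * r⁻¹) ∧
        ∀ s, (∃ j, s ^ p ^ j = 1) → ((π s : L) : G) ∈ R → β s = s := by
    intro r hr
    obtain ⟨β, h3, h4⟩ := hfix (L.normalizerMonoidHom ⟨r, hnN r hr⟩)
      ⟨⟨r, hnN r hr⟩, hRD hr, rfl⟩
    exact ⟨β, fun s => by rw [h3 s]; rfl, fun s hs hsR =>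
      h4 s hs (Subgroup.mem_sup_left (Subgroup.mem_subgroupOf.mpr (hRD hsR)))⟩
  obtain ⟨x, hxD, hxL, hx⟩ := hr
  have hxR : x ∈ R := by
    have h3 : x ∈ L ⊓ D := ⟨hxL, hxD⟩
    rw [← hinf] at h3
    exact h3.2
  have hengR : Eng (max 1 (p - 2)) ((R.subgroupOf L).comap π) := fun x hx y hy =>
    heng x (hRD hx) y (hRD hy)
  have hp3 : max 1 (p - 2) = p - 2 := by
    have h3 := (Fact.out : p.Prime).two_le
    omega
  have hact := hT p k K d G R L π e z hR h2 hn hd hpK hπ hk (fun x y hx hy => by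
    have h3 := hengR x hx y hy
    rwa [hp3] at h3) hβ ⟨x, hxR, hxL, hx⟩ he.block hbr hz hzF hez
  have hbR : br R b ≠ 0 := br_ne_zero_mono hRD hb
  exact hO p n m k K d G R L π b hd hpK hm hR hRn hπ hk (fun r hr => hact r hr.1) hengR
    ⟨x, hxR, hxL, hx⟩ hbF hbR R le_rfl hn e he heR hbr ⟨z, hz, hzF, hez⟩ hez'

end Vale.Agent.P180.H393
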