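import Vale.Agent.P180.H393.Gl

/-!
P180 H393: the irreducible characters of all general linear groups over a finite field, and the
structure constants of Harish-Chandra restriction.
-/

set_option linter.all false

namespace Vale.Agent.P180.H393

open Vale.Agent.P180.R2.H471.Hc Finset

universe u

section Gen

variable {K : Type u} [Field K]

theorem ip_equiv {H H' : Type} [Group H] [Fintype H] [Group H'] [Fintype H'] (φ : H ≃* H')
    (α β : H' → K) : ip (fun x => α (φ x)) (fun x => β (φ x)) = ip α β := by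
  rw [ip, ip, Nat.card_congr φ.toEquiv]
  congr 1
  rw [← Equiv.sum_comp φ.toEquiv]
  refine Finset.sum_congr rfl fun x _ => ?_
  change _ = α (φ x) * β (φ x)⁻¹
  rw [map_inv]

theorem IsIr.equiv {H H' : Type} [Group H] [Fintype H] [Group H'] [Fintype H'] (φ : H ≃* H')
    {α : H' → K} (h : IsIr K H' α) : IsIr K H (fun x => α (φ x)) :=
  ⟨h.1.comp φ.toMonoidHom, by rw [ip_equiv, h.2]⟩

variable [IsAlgClosed K] [CharZero K] {H : Type} [Group H] [Fintype H]

theorem nat_of_sum_sq {n : ℕ} {m : Fin n → ℕ} (h : ∑ i, m i * m i = 1) :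
    ∃ i, m i = 1 ∧ ∀ j, j ≠ i → m j = 0 := by
  have h1 : ∃ i, m i ≠ 0 := by
    by_contra hc
    push Not at hc
    rw [Finset.sum_eq_zero (fun i _ => by rw [hc i, zero_mul])] at h
    omega
  obtain ⟨i, hi⟩ := h1
  have h2 := Finset.add_sum_erase Finset.univ (fun i => m i * m i) (Finset.mem_univ i)
  have h3 : 1 ≤ m i * m i := Nat.mul_pos (Nat.pos_of_ne_zero hi) (Nat.pos_of_ne_zero hi)
  have h4 : m i * m i = 1 ∧ ∑ x ∈ Finset.univ.erase i, m x * m x = 0 := by
    omega
  refine ⟨i, ?_, fun j hj => ?_⟩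
  · exact Nat.eq_one_of_mul_eq_one_left h4.1
  · have h5 := (Finset.sum_eq_zero_iff.mp h4.2) j (Finset.mem_erase.mpr ⟨hj, Finset.mem_univ j⟩)
    exact (Nat.mul_eq_zero.mp h5).elim id id

/-- The irreducible characters are finite in number, orthonormal and complete. -/
theorem exists_irrS : ∃ S : Finset (H → K), (∀ χ, χ ∈ S ↔ IsIr K H χ) ∧
    (∀ χ ∈ S, ∀ ψ ∈ S, (χ ≠ ψ → ip χ ψ = 0)) ∧
    (∀ θ : H → K, IsCF θ → ∀ a, θ a = ∑ χ ∈ S, ip θ χ * χ a) ∧
    (∀ v : MonoidAlgebra K H, v * v = v → ∀ χ ∈ S, ∃ m : ℕ, ev χ v = m) ∧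
    (∀ x y : MonoidAlgebra K H, Vale.Agent.P180.R2.H12.Sl.tf x y = ∑ χ ∈ S, ev χ x * ev χ y) := by
  classical
  obtain ⟨n, χ, h1, h2, h3, h4, h5⟩ := exists_irr (K := K) (H := H)
  have hinj : Function.Injective χ := by
    intro i j hij
    by_contra hne
    have e1 := h2 i i
    have e2 := h2 i j
    rw [if_pos rfl] at e1
    rw [if_neg hne, ← hij, e1] at e2
    exact one_ne_zero e2
  have hS : ∀ f : (H → K) → K, ∑ χ' ∈ Finset.univ.map ⟨χ, hinj⟩, f χ' = ∑ i, f (χ i) := by
    intro f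
    rw [Finset.sum_map]
    rfl
  refine ⟨Finset.univ.map ⟨χ, hinj⟩, ?_, ?_, ?_, ?_, ?_⟩
  · intro ψ
    rw [Finset.mem_map]
    constructor
    · rintro ⟨i, -, rfl⟩
      exact ⟨h1 i, by rw [Function.Embedding.coeFn_mk, h2, if_pos rfl]⟩
    · rintro ⟨hψ, hn⟩
      have hm : ∀ i, ∃ m : ℕ, ip ψ (χ i) = m := fun i => hψ.ip_nat (h1 i)
      choose m hm using hm
      have hexp := h3 ψ (IsCh.cf hψ)
      have e1 : ∑ i, m i * m i = 1 := by
        have e2 : ip ψ ψ = ∑ i, ip ψ (χ i) * ip ψ (χ i) := by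
          rw [ip_comm]
          conv_lhs => rw [ip]
          have e3 : ∀ h, ψ h * ψ h⁻¹ = ∑ i, ip ψ (χ i) * (ψ h⁻¹ * χ i h) := by
            intro h
            conv_lhs => rw [hexp h]
            rw [Finset.sum_mul]
            exact Finset.sum_congr rfl fun i _ => by ring
          rw [Finset.sum_congr rfl fun h _ => e3 h, Finset.sum_comm, Finset.mul_sum]
          refine Finset.sum_congr rfl fun i _ => ?_
          rw [← Finset.mul_sum, mul_left_comm]
          congr 1
          rw [ip_comm ψ, ip]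
          congr 1
          exact Finset.sum_congr rfl fun h _ => mul_comm _ _
        rw [hn] at e2
        have e4 : ((∑ i, m i * m i : ℕ) : K) = 1 := by
          rw [e2]
          push_cast
          exact Finset.sum_congr rfl fun i _ => by rw [hm]
        exact_mod_cast e4
      obtain ⟨i, hi1, hi2⟩ := nat_of_sum_sq e1
      refine ⟨i, Finset.mem_univ i, ?_⟩
      funext a
      rw [hexp a, Finset.sum_eq_single i]
      · rw [hm, hi1, Nat.cast_one, one_mul]
        rfl
      · intro j _ hj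
        rw [hm, hi2 j hj, Nat.cast_zero, zero_mul]
      · intro h
        exact absurd (Finset.mem_univ i) h
  · intro ψ hψ φ hφ hne
    obtain ⟨i, -, rfl⟩ := Finset.mem_map.mp hψ
    obtain ⟨j, -, rfl⟩ := Finset.mem_map.mp hφ
    rw [Function.Embedding.coeFn_mk, h2, if_neg]
    intro hij
    exact hne (by rw [hij])
  · intro θ hθ a
    rw [hS (fun χ' => ip θ χ' * χ' a)]
    exact h3 θ hθ a
  · intro v hv ψ hψ
    obtain ⟨i, -, rfl⟩ := Finset.mem_map.mp hψ
    exact h4 v hv i
  · intro x y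
    rw [hS (fun χ' => ev χ' x * ev χ' y)]
    exact h5 x y

end Gen

section Om

variable (K : Type u) [Field K] (F : Type) [Field F] [Finite F]

/-- the irreducible characters of all general linear groups over `F` -/
structure Om : Type u where
  /-- the degree -/
  deg : ℕ
  /-- the character -/
  chr : ((Fin deg → F) ≃ₗ[F] (Fin deg → F)) → K
  /-- it is irreducible -/
  ir : IsIr K _ chr

variable {K F}

open scoped Classical in
/-- the character on the automorphism group of an arbitrary space -/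
noncomputable def X (w : Om K F) (V : Type) [AddCommGroup V] [Module F V] (g : V ≃ₗ[F] V) : K :=
  if h : Nonempty (V ≃ₗ[F] (Fin w.deg → F)) then w.chr (cg h.some g) else 0

variable {V V' : Type} [AddCommGroup V] [Module F V] [AddCommGroup V'] [Module F V']

theorem X_of (w : Om K F) (e : V ≃ₗ[F] (Fin w.deg → F)) (g : V ≃ₗ[F] V) :
    X w V g = w.chr (cg e g) := by
  have h : Nonempty (V ≃ₗ[F] (Fin w.deg → F)) := ⟨e⟩
  rw [X, dif_pos h]
  have h1 : cg h.some g = cg (e.symm.trans h.some) (cg e g) := by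
    ext x
    simp [cg_apply]
  rw [h1, cg_self]
  exact IsCh.cf w.ir.1 _ _

theorem nonempty_iff [Finite V] (n : ℕ) :
    Nonempty (V ≃ₗ[F] (Fin n → F)) ↔ Module.finrank F V = n := by
  have : Module.Finite F V := Module.Finite.of_finite
  constructor
  · rintro ⟨e⟩
    rw [e.finrank_eq, Module.finrank_fin_fun]
  · intro h
    exact ⟨LinearEquiv.ofFinrankEq _ _ (by rw [h, Module.finrank_fin_fun])⟩

theorem X_zero [Finite V] (w : Om K F) (h : Module.finrank F V ≠ w.deg) (g : V ≃ₗ[F] V) :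
    X w V g = 0 := by
  rw [X, dif_neg]
  rwa [nonempty_iff]

theorem X_cg (w : Om K F) (e : V ≃ₗ[F] V') (g : V ≃ₗ[F] V) : X w V' (cg e g) = X w V g := by
  by_cases h : Nonempty (V' ≃ₗ[F] (Fin w.deg → F))
  · obtain ⟨e'⟩ := h
    rw [X_of w e', X_of w (e.trans e'), cg_trans]
  · rw [X, dif_neg h, X, dif_neg]
    rintro ⟨e'⟩
    exact h ⟨e.symm.trans e'⟩

theorem X_isIr [Finite V] {w : Om K F} (h : Module.finrank F V = w.deg) : IsIr K _ (X w V) := by
  obtain ⟨e⟩ := (nonempty_iff (V := V) w.deg).mpr h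
  have h1 : X w V = fun g => w.chr (cg e g) := funext fun g => X_of w e g
  rw [h1]
  exact w.ir.equiv (cg e)

theorem X_isCh [Finite V] (w : Om K F) : IsCh K _ (X w V) := by
  by_cases h : Module.finrank F V = w.deg
  · exact (X_isIr h).1
  · exact isCh_zero.congr fun g => (X_zero w h g).symm

/-- every irreducible character comes from `Om` -/
theorem exists_om [Finite V] {χ : (V ≃ₗ[F] V) → K} (h : IsIr K _ χ) :
    ∃ w : Om K F, w.deg = Module.finrank F V ∧ X w V = χ := by
  obtain ⟨e⟩ := (nonempty_iff (V := V) (F := F) (Module.finrank F V)).mpr rfl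
  refine ⟨⟨Module.finrank F V, fun g => χ (cg e.symm g), h.equiv (cg e.symm)⟩, rfl, ?_⟩
  funext g
  refine (X_of (K := K) (F := F) _ e g).trans ?_
  change χ (cg e.symm (cg e g)) = χ g
  rw [cg_symm']

theorem X_inj [Finite V] {w w' : Om K F} (h : Module.finrank F V = w.deg)
    (h' : Module.finrank F V = w'.deg) (he : X w V = X w' V) : w = w' := by
  obtain ⟨n, χ, hχ⟩ := w
  obtain ⟨n', χ', hχ'⟩ := w'
  obtain rfl : n = n' := h.symm.trans h'
  have hχχ : χ = χ' := ?_
  · subst hχχ; rfl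
  funext g
  obtain ⟨e⟩ := (nonempty_iff (V := V) n).mpr h
  have h1 := congrFun he (cg e.symm g)
  have h2 := X_of (⟨n, χ, hχ⟩ : Om K F) e (cg e.symm g)
  have h3 := X_of (⟨n, χ', hχ'⟩ : Om K F) e (cg e.symm g)
  rw [cg_symm] at h2 h3
  exact h2.symm.trans (h1.trans h3)

variable [IsAlgClosed K] [CharZero K]

theorem finite_Om (n : ℕ) : {w : Om K F | w.deg = n}.Finite := by
  obtain ⟨S, hS, -⟩ := exists_irrS (K := K) (H := (Fin n → F) ≃ₗ[F] (Fin n → F))
  refine Set.Finite.of_finite_image (f := fun w : Om K F => X w (Fin n → F))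
    (S.finite_toSet.subset ?_) ?_
  · rintro _ ⟨w, hw, rfl⟩
    exact (hS _).mpr (X_isIr (by rw [Module.finrank_fin_fun]; exact hw.symm))
  · intro w hw w' hw' he
    exact X_inj (V := Fin n → F) (by rw [Module.finrank_fin_fun]; exact hw.symm)
      (by rw [Module.finrank_fin_fun]; exact hw'.symm) he

variable (K F) in
/-- the irreducible characters of degree `n` -/
noncomputable def OmS (n : ℕ) : Finset (Om K F) := (finite_Om n).toFinset

theorem mem_OmS {n : ℕ} {w : Om K F} : w ∈ OmS K F n ↔ w.deg = n := by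
  rw [OmS, Set.Finite.mem_toFinset]
  rfl

open scoped Classical in
theorem ip_X [Finite V] {w w' : Om K F} (h : w ∈ OmS K F (Module.finrank F V))
    (h' : w' ∈ OmS K F (Module.finrank F V)) :
    ip (X w V) (X w' V) = if w = w' then 1 else 0 := by
  obtain ⟨S, hS, hS2, -⟩ := exists_irrS (K := K) (H := V ≃ₗ[F] V)
  have h1 := X_isIr (V := V) (mem_OmS.mp h).symm
  have h1' := X_isIr (V := V) (mem_OmS.mp h').symm
  by_cases hw : w = w'
  · subst hw
    rw [if_pos rfl, h1.2]
  · rw [if_neg hw]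
    refine hS2 _ ((hS _).mpr h1) _ ((hS _).mpr h1') fun he => hw ?_
    exact X_inj (mem_OmS.mp h).symm (mem_OmS.mp h').symm he

/-- **Completeness.** -/
theorem expand [Finite V] {θ : (V ≃ₗ[F] V) → K} (hθ : IsCF θ) (g : V ≃ₗ[F] V) :
    θ g = ∑ w ∈ OmS K F (Module.finrank F V), ip θ (X w V) * X w V g := by
  classical
  obtain ⟨S, hS, hS2, hS3, -⟩ := exists_irrS (K := K) (H := V ≃ₗ[F] V)
  have hinj : Set.InjOn (fun w : Om K F => X w V) (OmS K F (Module.finrank F V)) := by
    intro w hw w' hw' he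
    exact X_inj (mem_OmS.mp hw).symm (mem_OmS.mp hw').symm he
  have hSe : S = (OmS K F (Module.finrank F V)).image (fun w => X w V) := by
    ext χ
    rw [Finset.mem_image]
    constructor
    · intro h
      obtain ⟨w, hw, rfl⟩ := exists_om ((hS _).mp h)
      exact ⟨w, mem_OmS.mpr hw, rfl⟩
    · rintro ⟨w, hw, rfl⟩
      exact (hS _).mpr (X_isIr (mem_OmS.mp hw).symm)
  rw [hS3 θ hθ g, hSe, Finset.sum_image hinj]

end Om

end Vale.Agent.P180.H393
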