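import Vale.Agent.P180.H393.Pv

/-!
P180 H393: the term of a double coset.
-/

set_option linter.all false

namespace Vale.Agent.P180.H393

open Vale.Agent.P180.R2.H471.Hc Finset

universe u

section

variable {F : Type} [Field F]

/-- characterisation of the parabolic subgroup -/
theorem mem_PB_iff {A B : Type} [AddCommGroup A] [Module F A] [AddCommGroup B] [Module F B]
    [Finite A] [Finite B] {g : (A × B) ≃ₗ[F] (A × B)} :
    g ∈ PB (F := F) A B ↔ ∀ b, (g (0, b)).1 = 0 := by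
  constructor
  · rintro ⟨a, b, f, rfl⟩ y
    rw [sk_apply]
    exact map_zero a
  · intro h
    let fA : A →ₗ[F] A := LinearMap.fst F A B ∘ₗ (g : (A × B) →ₗ[F] (A × B)) ∘ₗ LinearMap.inl F A B
    let fB : B →ₗ[F] B := LinearMap.snd F A B ∘ₗ (g : (A × B) →ₗ[F] (A × B)) ∘ₗ LinearMap.inr F A B
    have hg : ∀ x y, g (x, y) = ((g (x, 0)).1, (g (0, y)).2 + (g (x, 0)).2) := by
      intro x y
      have h1 : ((x, y) : A × B) = (0, y) + (x, 0) := by simp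
      rw [h1, map_add]
      refine Prod.ext ?_ rfl
      change (g (0, y)).1 + (g (x, 0)).1 = (g (x, 0)).1
      rw [h y, zero_add]
    have hA : Function.Bijective fA := by
      rw [← Finite.surjective_iff_bijective]
      intro x
      refine ⟨(g.symm (x, 0)).1, ?_⟩
      have h1 : g ((g.symm (x, 0)).1, (g.symm (x, 0)).2) = (x, 0) := g.apply_symm_apply _
      rw [hg] at h1
      exact (Prod.ext_iff.mp h1).1
    have hB : Function.Bijective fB := by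
      rw [← Finite.injective_iff_bijective]
      intro x y hxy
      have h1 : g (0, x) = g (0, y) := Prod.ext ((h x).trans (h y).symm) hxy
      exact (Prod.ext_iff.mp (g.injective h1)).2
    refine ⟨LinearEquiv.ofBijective fA hA, LinearEquiv.ofBijective fB hB,
      LinearMap.snd F A B ∘ₗ (g : (A × B) →ₗ[F] (A × B)) ∘ₗ LinearMap.inl F A B, ?_⟩
    apply LinearEquiv.ext
    rintro ⟨x, y⟩
    rw [hg x y, sk_apply]
    rfl

variable {A B C D : Type} [AddCommGroup A] [Module F A] [AddCommGroup B] [Module F B]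
  [AddCommGroup C] [Module F C] [AddCommGroup D] [Module F D]

/-- the interchange of the two middle factors -/
def swap4 (F A B C D : Type) [Field F] [AddCommGroup A] [Module F A] [AddCommGroup B] [Module F B]
    [AddCommGroup C] [Module F C] [AddCommGroup D] [Module F D] :
    ((A × B) × (C × D)) ≃ₗ[F] ((A × C) × (B × D)) where
  toFun x := ((x.1.1, x.2.1), (x.1.2, x.2.2))
  invFun x := ((x.1.1, x.2.1), (x.1.2, x.2.2))
  left_inv _ := rfl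
  right_inv _ := rfl
  map_add' _ _ := rfl
  map_smul' _ _ := rfl

/-- the component of a block triangular map -/
def f4 (fAC : A →ₗ[F] C) (fAD : A →ₗ[F] D) (fBD : B →ₗ[F] D) : (A × B) →ₗ[F] (C × D) :=
  (fAC ∘ₗ LinearMap.fst F A B).prod (fAD ∘ₗ LinearMap.fst F A B + fBD ∘ₗ LinearMap.snd F A B)

theorem f4_apply (fAC : A →ₗ[F] C) (fAD : A →ₗ[F] D) (fBD : B →ₗ[F] D) (x : A × B) :
    f4 fAC fAD fBD x = (fAC x.1, fAD x.1 + fBD x.2) := rfl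

variable (F A B C D) in
/-- the parameters -/
abbrev TT4 : Type := ((A ≃ₗ[F] A) × (B ≃ₗ[F] B) × (C ≃ₗ[F] C) × (D ≃ₗ[F] D)) ×
  (A →ₗ[F] B) × (C →ₗ[F] D) × (A →ₗ[F] C) × (B →ₗ[F] D) × (A →ₗ[F] D)

/-- the block triangular map with given blocks -/
def Y4 (y : TT4 F A B C D) : ((A × B) × (C × D)) ≃ₗ[F] ((A × B) × (C × D)) :=
  sk (sk y.1.1 y.1.2.1 y.2.1) (sk y.1.2.2.1 y.1.2.2.2 y.2.2.1)
    (f4 y.2.2.2.1 y.2.2.2.2.2 y.2.2.2.2.1)

theorem cg_Y4 (y : TT4 F A B C D) : cg (swap4 F A B C D) (Y4 y) =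
    sk (sk y.1.1 y.1.2.2.1 y.2.2.2.1) (sk y.1.2.1 y.1.2.2.2 y.2.2.2.2.1)
      (f4 y.2.1 y.2.2.2.2.2 y.2.2.1) := by
  obtain ⟨⟨a, b, c, d⟩, fAB, fCD, fAC, fBD, fAD⟩ := y
  apply LinearEquiv.ext
  rintro ⟨⟨x1, x3⟩, ⟨x2, x4⟩⟩
  change ((a x1, c x3 + fAC x1), (b x2 + fAB x1, d x4 + fCD x3 + (fAD x1 + fBD x2))) =
    ((a x1, c x3 + fAC x1), (b x2 + fAB x1, d x4 + fBD x2 + (fAD x1 + fCD x3)))
  have h1 : d x4 + fCD x3 + (fAD x1 + fBD x2) = d x4 + fBD x2 + (fAD x1 + fCD x3) := by abel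
  rw [h1]

theorem Y4_inj : Function.Injective (Y4 (F := F) (A := A) (B := B) (C := C) (D := D)) := by
  rintro ⟨⟨a, b, c, d⟩, fAB, fCD, fAC, fBD, fAD⟩ ⟨⟨a', b', c', d'⟩, fAB', fCD', fAC', fBD', fAD'⟩ h
  obtain ⟨h1, h2, h3⟩ := sk_inj h
  obtain ⟨rfl, rfl, rfl⟩ := sk_inj h1
  obtain ⟨rfl, rfl, rfl⟩ := sk_inj h2
  have h4 : ∀ x, f4 fAC fAD fBD x = f4 fAC' fAD' fBD' x := fun x => congrArg (fun g => g x) h3
  have e1 : fAC = fAC' := by
    ext x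
    exact (Prod.ext_iff.mp (h4 (x, 0))).1
  have e2 : fAD = fAD' := by
    ext x
    have := (Prod.ext_iff.mp (h4 (x, 0))).2
    simpa [f4_apply] using this
  have e3 : fBD = fBD' := by
    ext x
    have := (Prod.ext_iff.mp (h4 (0, x))).2
    simpa [f4_apply] using this
  rw [e1, e2, e3]

variable [Finite A] [Finite B] [Finite C] [Finite D]

theorem Y4_surj {x : ((A × B) × (C × D)) ≃ₗ[F] ((A × B) × (C × D))}
    (h1 : x ∈ PB (F := F) (A × B) (C × D))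
    (h2 : cg (swap4 F A B C D) x ∈ PB (F := F) (A × C) (B × D)) : ∃ y, x = Y4 y := by
  obtain ⟨g, h, f, rfl⟩ := h1
  have hh2 := mem_PB_iff.mp h2
  -- the equations
  have k1 : ∀ (b : B) (d : D), (g (0, b)).1 = 0 ∧ (h (0, d) + f (0, b)).1 = 0 := by
    intro b d
    have := hh2 (b, d)
    exact ⟨(Prod.ext_iff.mp this).1, (Prod.ext_iff.mp this).2⟩
  have hg : g ∈ PB (F := F) A B := mem_PB_iff.mpr fun b => (k1 b 0).1
  have hh : h ∈ PB (F := F) C D := by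
    refine mem_PB_iff.mpr fun d => ?_
    have := (k1 0 d).2
    have h0 : f ((0 : A), (0 : B)) = 0 := map_zero f
    rwa [h0, add_zero] at this
  obtain ⟨a, b, fAB, rfl⟩ := hg
  obtain ⟨c, d, fCD, rfl⟩ := hh
  refine ⟨((a, b, c, d), fAB, fCD, LinearMap.fst F C D ∘ₗ f ∘ₗ LinearMap.inl F A B,
    LinearMap.snd F C D ∘ₗ f ∘ₗ LinearMap.inr F A B,
    LinearMap.snd F C D ∘ₗ f ∘ₗ LinearMap.inl F A B), ?_⟩
  rw [Y4]
  congr 1
  apply LinearMap.ext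
  rintro ⟨x, y⟩
  rw [f4_apply]
  have h3 : f (x, y) = f (x, 0) + f (0, y) := by
    rw [← map_add]
    simp
  rw [h3]
  have h4 := (k1 y 0).2
  have h5 : (sk c d fCD) ((0 : C), (0 : D)) = 0 := map_zero _
  rw [h5, zero_add] at h4
  have h6 : (f (x, 0) + f (0, y)).1 = (f (x, 0)).1 := by
    change (f (x, 0)).1 + (f (0, y)).1 = (f (x, 0)).1
    rw [h4, add_zero]
  exact Prod.ext h6 rfl

/-- the stabiliser -/
def Pt (F A B C D : Type) [Field F] [AddCommGroup A] [Module F A] [AddCommGroup B] [Module F B]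
    [AddCommGroup C] [Module F C] [AddCommGroup D] [Module F D] :
    Subgroup (((A × B) × (C × D)) ≃ₗ[F] ((A × B) × (C × D))) :=
  PB (A × B) (C × D) ⊓ (PB (A × C) (B × D)).comap (cg (swap4 F A B C D)).toMonoidHom

theorem card_Pt : Nat.card (Pt F A B C D) = Nat.card (TT4 F A B C D) := by
  symm
  refine Nat.card_congr (Equiv.ofBijective (fun y => ⟨Y4 y, ⟨_, _, _, rfl⟩, by
    change cg (swap4 F A B C D) (Y4 y) ∈ PB (F := F) (A × C) (B × D)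
    rw [cg_Y4]
    exact ⟨_, _, _, rfl⟩⟩) ⟨?_, ?_⟩)
  · intro y y' h
    exact Y4_inj (congrArg Subtype.val h)
  · rintro ⟨x, h1, h2⟩
    obtain ⟨y, rfl⟩ := Y4_surj h1 h2
    exact ⟨y, rfl⟩

variable {K : Type u} [Field K]

theorem infl_sk_inv (α : (A ≃ₗ[F] A) → K) (β : (B ≃ₗ[F] B) → K) (a : A ≃ₗ[F] A) (b : B ≃ₗ[F] B)
    (f : A →ₗ[F] B) : infl α β (sk a b f)⁻¹ = α a⁻¹ * β b⁻¹ := by
  rw [sk_inv, infl_sk]

theorem FF_swap (α : ((A × B) ≃ₗ[F] (A × B)) → K) (β : ((C × D) ≃ₗ[F] (C × D)) → K)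
    (α' : ((A × C) ≃ₗ[F] (A × C)) → K) (β' : ((B × D) ≃ₗ[F] (B × D)) → K) :
    FF α β α' β' (swap4 F A B C D) = ∑ y : TT4 F A B C D,
      α (sk y.1.1 y.1.2.1 y.2.1) * β (sk y.1.2.2.1 y.1.2.2.2 y.2.2.1) *
        (α' (sk y.1.1 y.1.2.2.1 y.2.2.2.1)⁻¹ * β' (sk y.1.2.1 y.1.2.2.2 y.2.2.2.2.1)⁻¹) := by
  classical
  rw [FF]
  symm
  have h1 : ∀ y : TT4 F A B C D, α (sk y.1.1 y.1.2.1 y.2.1) *
      β (sk y.1.2.2.1 y.1.2.2.2 y.2.2.1) * (α' (sk y.1.1 y.1.2.2.1 y.2.2.2.1)⁻¹ *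
        β' (sk y.1.2.1 y.1.2.2.2 y.2.2.2.2.1)⁻¹) =
      infl α β (Y4 y) * infl α' β' (cg (swap4 F A B C D) (Y4 y)⁻¹) := by
    intro y
    rw [map_inv, cg_Y4, infl_sk_inv, Y4, infl_sk]
  rw [Finset.sum_congr rfl fun y _ => h1 y]
  have h0 : ∑ y : TT4 F A B C D, infl α β (Y4 y) * infl α' β' (cg (swap4 F A B C D) (Y4 y)⁻¹) =
      ∑ x ∈ Finset.univ.map ⟨Y4, Y4_inj⟩, infl α β x * infl α' β' (cg (swap4 F A B C D) x⁻¹) :=
    by rw [Finset.sum_map]; rfl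
  rw [h0]
  refine Finset.sum_subset (Finset.subset_univ _) fun x _ hx => ?_
  by_cases h2 : x ∈ PB (F := F) (A × B) (C × D)
  · by_cases h3 : cg (swap4 F A B C D) x ∈ PB (F := F) (A × C) (B × D)
    · exfalso
      obtain ⟨y, rfl⟩ := Y4_surj h2 h3
      exact hx (Finset.mem_map.mpr ⟨y, Finset.mem_univ _, rfl⟩)
    · rw [infl_zero α' β', mul_zero]
      intro h4
      rw [map_inv] at h4
      exact h3 ((Subgroup.inv_mem_iff _).mp h4)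
  · rw [infl_zero α β h2, zero_mul]

variable [CharZero K]

theorem sum_Res_inv (γ : ((A × B) ≃ₗ[F] (A × B)) → K) (a : A ≃ₗ[F] A) (b : B ≃ₗ[F] B) :
    ∑ f : A →ₗ[F] B, γ (sk a b f)⁻¹ = (Nat.card (A →ₗ[F] B) : K) * Res γ a⁻¹ b⁻¹ := by
  rw [Res, ← mul_assoc, mul_inv_cancel₀ (card_ne' _), one_mul]
  let E : (A →ₗ[F] B) ≃ (A →ₗ[F] B) :=
    { toFun := fun f => -(((b⁻¹ : B ≃ₗ[F] B) : B →ₗ[F] B) ∘ₗ f ∘ₗ
        ((a⁻¹ : A ≃ₗ[F] A) : A →ₗ[F] A))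
      invFun := fun f => -((b : B →ₗ[F] B) ∘ₗ f ∘ₗ (a : A →ₗ[F] A))
      left_inv := fun f => by
        ext y
        change -(b (-(b⁻¹ (f (a⁻¹ (a y)))))) = f y
        rw [map_neg, neg_neg]
        have h1 : a⁻¹ (a y) = y := a.symm_apply_apply y
        rw [h1]
        exact b.apply_symm_apply _
      right_inv := fun f => by
        ext y
        change -(b⁻¹ (-(b (f (a (a⁻¹ y)))))) = f y
        rw [map_neg, neg_neg]
        have h1 : a (a⁻¹ y) = y := a.apply_symm_apply y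
        rw [h1]
        exact b.symm_apply_apply _ }
  rw [← Equiv.sum_comp E (fun f => γ (sk a⁻¹ b⁻¹ f))]
  refine Finset.sum_congr rfl fun f _ => ?_
  rw [sk_inv]
  rfl

theorem sum_Res (γ : ((A × B) ≃ₗ[F] (A × B)) → K) (a : A ≃ₗ[F] A) (b : B ≃ₗ[F] B) :
    ∑ f : A →ₗ[F] B, γ (sk a b f) = (Nat.card (A →ₗ[F] B) : K) * Res γ a b := by
  rw [Res, ← mul_assoc, mul_inv_cancel₀ (card_ne' _), one_mul]

/-- the average over the stabiliser -/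
theorem FF_swap' (α : ((A × B) ≃ₗ[F] (A × B)) → K) (β : ((C × D) ≃ₗ[F] (C × D)) → K)
    (α' : ((A × C) ≃ₗ[F] (A × C)) → K) (β' : ((B × D) ≃ₗ[F] (B × D)) → K) :
    (Nat.card (Pt F A B C D) : K)⁻¹ * FF α β α' β' (swap4 F A B C D) =
      ((Nat.card (A ≃ₗ[F] A) : K)⁻¹ * (Nat.card (B ≃ₗ[F] B) : K)⁻¹ *
        (Nat.card (C ≃ₗ[F] C) : K)⁻¹ * (Nat.card (D ≃ₗ[F] D) : K)⁻¹) *
      ∑ a : A ≃ₗ[F] A, ∑ b : B ≃ₗ[F] B, ∑ c : C ≃ₗ[F] C, ∑ d : D ≃ₗ[F] D,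
        Res α a b * Res β c d * (Res α' a⁻¹ c⁻¹ * Res β' b⁻¹ d⁻¹) := by
  rw [FF_swap, card_Pt, Fintype.sum_prod_type, Fintype.sum_prod_type]
  have h1 : ∀ (a : A ≃ₗ[F] A) (b : B ≃ₗ[F] B) (c : C ≃ₗ[F] C) (d : D ≃ₗ[F] D),
      ∑ y : (A →ₗ[F] B) × (C →ₗ[F] D) × (A →ₗ[F] C) × (B →ₗ[F] D) × (A →ₗ[F] D),
        α (sk a b y.1) * β (sk c d y.2.1) * (α' (sk a c y.2.2.1)⁻¹ * β' (sk b d y.2.2.2.1)⁻¹) =
      (Nat.card (A →ₗ[F] B) : K) * (Nat.card (C →ₗ[F] D) : K) * (Nat.card (A →ₗ[F] C) : K) *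
        (Nat.card (B →ₗ[F] D) : K) * (Nat.card (A →ₗ[F] D) : K) *
        (Res α a b * Res β c d * (Res α' a⁻¹ c⁻¹ * Res β' b⁻¹ d⁻¹)) := by
    intro a b c d
    simp only [Fintype.sum_prod_type, Finset.sum_const, Finset.card_univ, nsmul_eq_mul]
    rw [← Nat.card_eq_fintype_card]
    have h2 : ∀ (s t u v : K) (n : K), n * (s * t * (u * v)) = s * (t * (u * (v * n))) := by
      intros; ring
    simp only [h2, ← Finset.mul_sum, ← Finset.sum_mul, sum_Res, sum_Res_inv]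
    ring
  have h3 : ∀ (x : (A ≃ₗ[F] A)), ∑ x_1 : (B ≃ₗ[F] B) × (C ≃ₗ[F] C) × (D ≃ₗ[F] D),
      ∑ y : (A →ₗ[F] B) × (C →ₗ[F] D) × (A →ₗ[F] C) × (B →ₗ[F] D) × (A →ₗ[F] D),
        α (sk x x_1.1 y.1) * β (sk x_1.2.1 x_1.2.2 y.2.1) *
          (α' (sk x x_1.2.1 y.2.2.1)⁻¹ * β' (sk x_1.1 x_1.2.2 y.2.2.2.1)⁻¹) =
      (Nat.card (A →ₗ[F] B) : K) * (Nat.card (C →ₗ[F] D) : K) * (Nat.card (A →ₗ[F] C) : K) *
        (Nat.card (B →ₗ[F] D) : K) * (Nat.card (A →ₗ[F] D) : K) *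
        ∑ b : B ≃ₗ[F] B, ∑ c : C ≃ₗ[F] C, ∑ d : D ≃ₗ[F] D,
        (Res α x b * Res β c d * (Res α' x⁻¹ c⁻¹ * Res β' b⁻¹ d⁻¹)) := by
    intro x
    rw [Fintype.sum_prod_type]
    simp only [Finset.mul_sum]
    refine Finset.sum_congr rfl fun b _ => ?_
    rw [Fintype.sum_prod_type]
    refine Finset.sum_congr rfl fun c _ => Finset.sum_congr rfl fun d _ => ?_
    exact h1 x b c d
  rw [Finset.sum_congr rfl fun x _ => h3 x, ← Finset.mul_sum, ← mul_assoc]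
  congr 1
  simp only [TT4, Nat.card_prod, Nat.cast_mul]
  have k1 := card_ne' (K := K) (A →ₗ[F] B)
  have k2 := card_ne' (K := K) (C →ₗ[F] D)
  have k3 := card_ne' (K := K) (A →ₗ[F] C)
  have k4 := card_ne' (K := K) (B →ₗ[F] D)
  have k5 := card_ne' (K := K) (A →ₗ[F] D)
  have k6 := card_ne' (K := K) (A ≃ₗ[F] A)
  have k7 := card_ne' (K := K) (B ≃ₗ[F] B)
  have k8 := card_ne' (K := K) (C ≃ₗ[F] C)
  have k9 := card_ne' (K := K) (D ≃ₗ[F] D)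
  field_simp

end

end Vale.Agent.P180.H393
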