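import Vale.Agent.P180.H393.Ev

/-!
P180 H393: the term of a double coset in terms of the structure constants.
-/

set_option linter.all false

namespace Vale.Agent.P180.H393

open Vale.Agent.P180.R2.H471.Hc Finset

universe u

section Sums

variable {K : Type*} [CommSemiring K]

theorem sum4_comm {A B C D ι : Type*} [Fintype A] [Fintype B] [Fintype C] [Fintype D]
    (s1 s2 s3 s4 : Finset ι) (f : A → B → C → D → ι → ι → ι → ι → K) :
    ∑ a, ∑ b, ∑ c, ∑ d, ∑ p ∈ s1, ∑ q ∈ s2, ∑ r ∈ s3, ∑ s ∈ s4, f a b c d p q r s =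
      ∑ p ∈ s1, ∑ q ∈ s2, ∑ r ∈ s3, ∑ s ∈ s4, ∑ a, ∑ b, ∑ c, ∑ d, f a b c d p q r s := by
  have h1 : ∀ g : A → B → C → D → K, ∑ a, ∑ b, ∑ c, ∑ d, g a b c d =
      ∑ x : A × B × C × D, g x.1 x.2.1 x.2.2.1 x.2.2.2 := by
    intro g
    simp only [Fintype.sum_prod_type]
  have h2 : ∀ g : ι → ι → ι → ι → K, ∑ p ∈ s1, ∑ q ∈ s2, ∑ r ∈ s3, ∑ s ∈ s4, g p q r s =
      ∑ y ∈ s1 ×ˢ s2 ×ˢ s3 ×ˢ s4, g y.1 y.2.1 y.2.2.1 y.2.2.2 := by
    intro g
    simp only [Finset.sum_product]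
  rw [h1, h2]
  simp only [h2]
  rw [Finset.sum_comm]
  refine Finset.sum_congr rfl fun y _ => ?_
  rw [h1]

theorem big_sum {A B C D ι : Type*} [Fintype A] [Fintype B] [Fintype C] [Fintype D]
    (s1 s2 s3 s4 : Finset ι) (c1 c2 : ι → ι → K) (P : ι → A → K) (Q : ι → B → K) (R : ι → C → K)
    (S : ι → D → K) (U : A → C → K) (V : B → D → K) :
    ∑ a, ∑ b, ∑ c, ∑ d, (∑ p ∈ s1, ∑ q ∈ s2, c1 p q * P p a * Q q b) *
      (∑ r ∈ s3, ∑ s ∈ s4, c2 r s * R r c * S s d) * (U a c * V b d) =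
    ∑ p ∈ s1, ∑ q ∈ s2, ∑ r ∈ s3, ∑ s ∈ s4, c1 p q * c2 r s *
      ((∑ a, ∑ c, U a c * P p a * R r c) * (∑ b, ∑ d, V b d * Q q b * S s d)) := by
  have h1 : ∀ a b c d, (∑ p ∈ s1, ∑ q ∈ s2, c1 p q * P p a * Q q b) *
      (∑ r ∈ s3, ∑ s ∈ s4, c2 r s * R r c * S s d) * (U a c * V b d) =
      ∑ p ∈ s1, ∑ q ∈ s2, ∑ r ∈ s3, ∑ s ∈ s4,
        (c1 p q * c2 r s) * ((U a c * P p a * R r c) * (V b d * Q q b * S s d)) := by
    intro a b c d
    rw [Finset.sum_mul, Finset.sum_mul]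
    refine Finset.sum_congr rfl fun p _ => ?_
    rw [Finset.sum_mul, Finset.sum_mul]
    refine Finset.sum_congr rfl fun q _ => ?_
    rw [Finset.mul_sum, Finset.sum_mul]
    refine Finset.sum_congr rfl fun r _ => ?_
    rw [Finset.mul_sum, Finset.sum_mul]
    refine Finset.sum_congr rfl fun s _ => ?_
    ring
  simp only [h1]
  rw [sum4_comm]
  refine Finset.sum_congr rfl fun p _ => Finset.sum_congr rfl fun q _ =>
    Finset.sum_congr rfl fun r _ => Finset.sum_congr rfl fun s _ => ?_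
  simp only [← Finset.mul_sum]
  congr 1
  rw [Finset.sum_mul]
  refine Finset.sum_congr rfl fun a _ => ?_
  rw [Finset.sum_comm, Finset.sum_mul]
  refine Finset.sum_congr rfl fun c _ => ?_
  simp only [Finset.mul_sum]

end Sums

section

variable {K : Type u} [Field K] [IsAlgClosed K] [CharZero K] {F : Type} [Field F] [Finite F]
variable {A B C D : Type} [AddCommGroup A] [Module F A] [AddCommGroup B] [Module F B]
  [AddCommGroup C] [Module F C] [AddCommGroup D] [Module F D]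
variable [Finite A] [Finite B] [Finite C] [Finite D]

omit [IsAlgClosed K] [CharZero K] [Finite F] in
theorem mu_inv' (α : (A ≃ₗ[F] A) → K) (β : (B ≃ₗ[F] B) → K)
    (γ : ((A × B) ≃ₗ[F] (A × B)) → K) :
    mu α β γ = (Nat.card (A ≃ₗ[F] A) : K)⁻¹ * (Nat.card (B ≃ₗ[F] B) : K)⁻¹ *
      ∑ a : A ≃ₗ[F] A, ∑ b : B ≃ₗ[F] B, Res γ a⁻¹ b⁻¹ * α a * β b := by
  rw [mu]
  congr 1
  rw [← Equiv.sum_comp (Equiv.inv (A ≃ₗ[F] A))]
  refine Finset.sum_congr rfl fun a _ => ?_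
  rw [← Equiv.sum_comp (Equiv.inv (B ≃ₗ[F] B))]
  refine Finset.sum_congr rfl fun b _ => ?_
  rw [Equiv.inv_apply, Equiv.inv_apply, inv_inv, inv_inv]

/-- **The term of a double coset.** -/
theorem FF_cc (a b k l : Om K F) :
    (Nat.card (Pt F A B C D) : K)⁻¹ *
      FF (X a (A × B)) (X b (C × D)) (X k (A × C)) (X l (B × D)) (swap4 F A B C D) =
    ∑ p ∈ OmS K F (Module.finrank F A), ∑ q ∈ OmS K F (Module.finrank F B),
      ∑ r ∈ OmS K F (Module.finrank F C), ∑ s ∈ OmS K F (Module.finrank F D),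
        (cc p q a : K) * cc r s b * (cc p r k * cc q s l) := by
  rw [FF_swap']
  simp only [res_eq a, res_eq b]
  rw [big_sum (OmS K F (Module.finrank F A)) (OmS K F (Module.finrank F B))
    (OmS K F (Module.finrank F C)) (OmS K F (Module.finrank F D))
    (fun p q => (cc p q a : K)) (fun r s => (cc r s b : K)) (fun p => X p A) (fun q => X q B)
    (fun r => X r C) (fun s => X s D) (fun x z => Res (X k (A × C)) x⁻¹ z⁻¹)
    (fun y w => Res (X l (B × D)) y⁻¹ w⁻¹)]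
  simp only [Finset.mul_sum]
  refine Finset.sum_congr rfl fun p hp => Finset.sum_congr rfl fun q hq =>
    Finset.sum_congr rfl fun r hr => Finset.sum_congr rfl fun s hs => ?_
  simp only [← Finset.mul_sum]
  rw [cc_eq (A := A) (B := C) k (mem_OmS.mp hp).symm (mem_OmS.mp hr).symm,
    cc_eq (A := B) (B := D) l (mem_OmS.mp hq).symm (mem_OmS.mp hs).symm, mu_inv', mu_inv']
  ring

end

end Vale.Agent.P180.H393
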