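import Vale.Agent.P180.H392.CorE
import Vale.Agent.P180.R2.H471.Au12

set_option linter.all false

/-!
P180: automorphisms of central quotients of `SL(E)` which lift to automorphisms of `SL(E)` fixing the
`p`-elements over `A Z(L)`.
-/

namespace Vale.Agent.P180.H393

open Module Vale.Agent.P180 Vale.Agent.P180.R2 Vale.Agent.P180.R2.H365 Vale.Agent.P180.R2.H47

/-- The elements of `Γ` lift to automorphisms of `SL(E)` which fix the elements of `p`-power order
over `A Z(L)`. -/
def FixE (p : ℕ) {K E L : Type} [Field K] [AddCommGroup E] [Module K E] [Group L]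
    (π : SpecialLinearGroup K E →* L) (Γ : Subgroup (MulAut L)) (A : Subgroup L) : Prop :=
  ∀ α ∈ Γ, ∃ β : MulAut (SpecialLinearGroup K E), (∀ s, π (β s) = α (π s)) ∧
    ∀ s, (∃ j : ℕ, s ^ p ^ j = 1) → π s ∈ A ⊔ Subgroup.center L → β s = s

section

variable {p : ℕ} {K E S S' : Type} [Field K] [AddCommGroup E] [Module K E] [Group S] [Group S']
  {π : SpecialLinearGroup K E →* S}

theorem perfect_of_surj (f : S →* S') (hf : Function.Surjective f) (hS : commutator S = ⊤) :
    commutator S' = ⊤ := by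
  have h1 := congrArg (Subgroup.map f) hS
  rw [_root_.commutator_def, Subgroup.map_commutator, ← MonoidHom.range_eq_map,
    MonoidHom.range_eq_top.mpr hf] at h1
  rw [_root_.commutator_def]
  exact h1

theorem FixE.sub {Γ : Subgroup (MulAut S)} {A A' : Subgroup S} (hA : A' ≤ A) (h : FixE p π Γ A) :
    FixE p π Γ A' := by
  intro α hα
  obtain ⟨β, h1, h2⟩ := h α hα
  exact ⟨β, h1, fun s hs hsA => h2 s hs (sup_le_sup_right hA _ hsA)⟩

theorem FixE.map (f : S →* S') (hf : Function.Surjective f)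
    (hker : ∀ x, f x = 1 → ∀ y, x * y = y * x) (hS : commutator S = ⊤)
    {Γ : Subgroup (MulAut S)} {Γ' : Subgroup (MulAut S')} {A : Subgroup S}
    (hΓ : ∀ α' ∈ Γ', ∃ α ∈ Γ, ∀ s, f (α s) = α' (f s)) (h : FixE p π Γ A) :
    FixE p (f.comp π) Γ' (A.map f) := by
  intro α' hα'
  obtain ⟨α, hα, h5⟩ := hΓ α' hα'
  obtain ⟨β, h1, h2⟩ := h α hα
  refine ⟨β, fun s => ?_, fun s hs hsA => h2 s hs ?_⟩
  · rw [MonoidHom.comp_apply, MonoidHom.comp_apply, h1, h5]
  · obtain ⟨_, ⟨a, ha, rfl⟩, z, hz, h3⟩ := Subgroup.mem_sup_of_normal_right.mp hsA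
    have h4 : f (a⁻¹ * π s) = z := by
      rw [map_mul, map_inv]
      have h5 : f a * z = f (π s) := h3
      rw [← h5, inv_mul_cancel_left]
    have h6 : a⁻¹ * π s ∈ Subgroup.center S := by
      refine center_of_quot f hf ?_ (perfect_of_surj f hf hS) (by rw [h4]; exact hz)
      intro x hx
      rw [Subgroup.mem_center_iff]
      exact fun y => (hker x hx y).symm
    have h7 : π s = a * (a⁻¹ * π s) := (mul_inv_cancel_left _ _).symm
    rw [h7]
    exact Subgroup.mul_mem _ (Subgroup.mem_sup_left ha) (Subgroup.mem_sup_right h6)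

end

end Vale.Agent.P180.H393
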