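import Vale.Agent.P180.H393.FixD

set_option linter.all false

/-!
P180: `FixE` through functions.
-/

namespace Vale.Agent.P180.H393

open Module Vale.Agent.P180 Vale.Agent.P180.R2 Vale.Agent.P180.R2.H365 Vale.Agent.P180.R2.H47

/-- The elements of `Γ` lift to endomorphisms of `SL(E)` which fix the elements of `p`-power order
over `A Z(L)`. -/
def FixF (p : ℕ) {K E L : Type} [Field K] [AddCommGroup E] [Module K E] [Group L]
    (π : SpecialLinearGroup K E →* L) (Γ : Subgroup (MulAut L)) (A : Subgroup L) : Prop :=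
  ∀ α ∈ Γ, ∃ β : SpecialLinearGroup K E → SpecialLinearGroup K E, (∀ s t, β (s * t) = β s * β t) ∧
    (∀ s, π (β s) = α (π s)) ∧
    ∀ s, (∃ j : ℕ, s ^ p ^ j = 1) → π s ∈ A ⊔ Subgroup.center L → β s = s

theorem FixE.fixF {p : ℕ} {K E L : Type} [Field K] [AddCommGroup E] [Module K E] [Group L]
    {π : SpecialLinearGroup K E →* L} {Γ : Subgroup (MulAut L)} {A : Subgroup L}
    (h : FixE p π Γ A) : FixF p π Γ A := by
  intro α hα
  obtain ⟨β, h1, h2⟩ := h α hα
  exact ⟨β, fun s t => map_mul β s t, h1, h2⟩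

theorem FixF.fixE {p : ℕ} {K L : Type} [Field K] [Finite K] [Group L] {d : ℕ} (hd : 3 ≤ d)
    {π : SpecialLinearGroup K (Fin d → K) →* L} (hπ : Function.Surjective π)
    (hk : π.ker ≤ Subgroup.center _) {Γ : Subgroup (MulAut L)} {A : Subgroup L}
    (h : FixF p π Γ A) : FixE p π Γ A := by
  haveI : Finite (SpecialLinearGroup K (Fin d → K)) := H799.BN.finite_sl
  intro α hα
  obtain ⟨β, hmul, h1, h2⟩ := h α hα
  let β' : SpecialLinearGroup K (Fin d → K) →* SpecialLinearGroup K (Fin d → K) :=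
    MonoidHom.mk' β hmul
  have hβ' : ∀ s, β' s = β s := fun s => rfl
  have hdec : ∀ s, ∃ t, ∃ z ∈ Subgroup.center (SpecialLinearGroup K (Fin d → K)),
      s = β' t * z := by
    intro s
    obtain ⟨l, hl⟩ := α.surjective (π s)
    obtain ⟨t, rfl⟩ := hπ l
    refine ⟨t, (β' t)⁻¹ * s, hk ?_, (mul_inv_cancel_left _ _).symm⟩
    rw [MonoidHom.mem_ker, map_mul, map_inv, hβ', h1, hl, inv_mul_cancel]
  have hsurj : Function.Surjective β' := by
    rw [← MonoidHom.range_eq_top, eq_top_iff, ← H471.Au.perfect_sl (K := K) hd]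
    rw [_root_.commutator_def, Subgroup.commutator_le]
    rintro a - b -
    obtain ⟨s, z, hz, rfl⟩ := hdec a
    obtain ⟨t, w, hw, rfl⟩ := hdec b
    have ez := Subgroup.mem_center_iff.mp hz
    have ew := Subgroup.mem_center_iff.mp hw
    have e : β' s * z * (β' t * w) * (β' s * z)⁻¹ * (β' t * w)⁻¹ =
        β' s * β' t * (β' s)⁻¹ * (β' t)⁻¹ := by
      calc β' s * z * (β' t * w) * (β' s * z)⁻¹ * (β' t * w)⁻¹
          = β' s * (z * (β' t * w)) * z⁻¹ * (β' s)⁻¹ * (w⁻¹ * (β' t)⁻¹) := by group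
        _ = β' s * ((β' t * w) * z) * z⁻¹ * (β' s)⁻¹ * (w⁻¹ * (β' t)⁻¹) := by rw [ez (β' t * w)]
        _ = β' s * β' t * (w * (β' s)⁻¹) * w⁻¹ * (β' t)⁻¹ := by group
        _ = β' s * β' t * ((β' s)⁻¹ * w) * w⁻¹ * (β' t)⁻¹ := by rw [ew (β' s)⁻¹]
        _ = _ := by group
    rw [commutatorElement_def, e, ← map_mul, ← map_inv, ← map_mul, ← map_inv, ← map_mul]
    exact ⟨_, rfl⟩
  have hinj : Function.Injective β' := Finite.injective_iff_surjective.mpr hsurj
  exact ⟨MulEquiv.ofBijective β' ⟨hinj, hsurj⟩, fun s => h1 s, fun s hs hsA => h2 s hs hsA⟩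

theorem fixF_iff {p : ℕ} {K L : Type} [Field K] [Finite K] [Group L] {d : ℕ} (hd : 3 ≤ d)
    {π : SpecialLinearGroup K (Fin d → K) →* L} (hπ : Function.Surjective π)
    (hk : π.ker ≤ Subgroup.center _) {Γ : Subgroup (MulAut L)} {A : Subgroup L} :
    FixF p π Γ A ↔ FixE p π Γ A := ⟨fun h => h.fixE hd hπ hk, fun h => h.fixF⟩

end Vale.Agent.P180.H393
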