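import Vale.Agent.P180.H393.Cc

/-!
P180 H393: Parseval for Harish-Chandra induction.
-/

set_option linter.all false

namespace Vale.Agent.P180.H393

open Vale.Agent.P180.R2.H471.Hc Finset

universe u

section

variable {K : Type u} [Field K] {F : Type} [Field F] [Finite F]
variable {A B A' B' : Type} [AddCommGroup A] [Module F A] [AddCommGroup B] [Module F B]
  [AddCommGroup A'] [Module F A'] [AddCommGroup B'] [Module F B']
variable [Finite A] [Finite B] [Finite A'] [Finite B']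

open scoped Classical in
/-- inflation of a function on the Levi subgroup, extended by zero -/
noncomputable def infl (α : (A ≃ₗ[F] A) → K) (β : (B ≃ₗ[F] B) → K)
    (x : (A × B) ≃ₗ[F] (A × B)) : K :=
  ∑ a : A ≃ₗ[F] A, ∑ b : B ≃ₗ[F] B, ∑ f : A →ₗ[F] B, if x = sk a b f then α a * β b else 0

omit [Finite F] in
theorem infl_sk (α : (A ≃ₗ[F] A) → K) (β : (B ≃ₗ[F] B) → K) (a : A ≃ₗ[F] A) (b : B ≃ₗ[F] B)
    (f : A →ₗ[F] B) : infl α β (sk a b f) = α a * β b := by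
  classical
  rw [infl, Finset.sum_eq_single a, Finset.sum_eq_single b, Finset.sum_eq_single f, if_pos rfl]
  · intro f' _ hf'
    rw [if_neg]
    intro h
    exact hf' (sk_inj h).2.2.symm
  · intro h; exact absurd (Finset.mem_univ _) h
  · intro b' _ hb'
    refine Finset.sum_eq_zero fun f' _ => ?_
    rw [if_neg]
    intro h
    exact hb' (sk_inj h).2.1.symm
  · intro h; exact absurd (Finset.mem_univ _) h
  · intro a' _ ha'
    refine Finset.sum_eq_zero fun b' _ => Finset.sum_eq_zero fun f' _ => ?_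
    rw [if_neg]
    intro h
    exact ha' (sk_inj h).1.symm
  · intro h; exact absurd (Finset.mem_univ _) h

omit [Finite F] in
theorem infl_zero (α : (A ≃ₗ[F] A) → K) (β : (B ≃ₗ[F] B) → K) {x : (A × B) ≃ₗ[F] (A × B)}
    (hx : x ∉ PB (F := F) A B) : infl α β x = 0 := by
  classical
  rw [infl]
  refine Finset.sum_eq_zero fun a' _ => Finset.sum_eq_zero fun b' _ =>
    Finset.sum_eq_zero fun f' _ => ?_
  rw [if_neg]
  intro h
  exact hx ⟨a', b', f', h⟩

omit [Finite F] in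
/-- sums against an inflated function -/
theorem sum_infl (α : (A ≃ₗ[F] A) → K) (β : (B ≃ₗ[F] B) → K)
    (θ : ((A × B) ≃ₗ[F] (A × B)) → K) : ∑ x, θ x * infl α β x =
      ∑ a : A ≃ₗ[F] A, ∑ b : B ≃ₗ[F] B, ∑ f : A →ₗ[F] B, θ (sk a b f) * (α a * β b) := by
  classical
  unfold infl
  simp only [Finset.mul_sum, mul_ite, mul_zero]
  rw [Finset.sum_comm]
  refine Finset.sum_congr rfl fun a _ => ?_
  rw [Finset.sum_comm]
  refine Finset.sum_congr rfl fun b _ => ?_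
  rw [Finset.sum_comm]
  refine Finset.sum_congr rfl fun f _ => ?_
  rw [Finset.sum_ite_eq' Finset.univ (sk a b f), if_pos (Finset.mem_univ _)]

omit [Finite F] in
theorem infl_conj {α : (A ≃ₗ[F] A) → K} {β : (B ≃ₗ[F] B) → K} (hα : IsCF α) (hβ : IsCF β)
    {p : (A × B) ≃ₗ[F] (A × B)} (hp : p ∈ PB (F := F) A B) (x : (A × B) ≃ₗ[F] (A × B)) :
    infl α β (p * x * p⁻¹) = infl α β x := by
  by_cases hx : x ∈ PB (F := F) A B
  · obtain ⟨a, b, f, rfl⟩ := hp
    obtain ⟨a', b', f', rfl⟩ := hx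
    rw [sk_inv, sk_mul, sk_mul, infl_sk, infl_sk, hα, hβ]
  · rw [infl_zero α β hx, infl_zero]
    intro h
    apply hx
    have := Subgroup.mul_mem _ (Subgroup.mul_mem _ (Subgroup.inv_mem _ hp) h) hp
    simpa [mul_assoc] using this

variable (F A B) in
/-- the order of the parabolic subgroup -/
noncomputable def cP : ℕ := Nat.card (A ≃ₗ[F] A) * Nat.card (B ≃ₗ[F] B) * Nat.card (A →ₗ[F] B)

omit [Finite F] in
theorem card_PB : Nat.card (PB (F := F) A B) = cP F A B := by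
  rw [cP, ← Nat.card_prod, ← Nat.card_prod]
  symm
  refine Nat.card_congr (Equiv.ofBijective (fun x => ⟨sk x.1.1 x.1.2 x.2, _, _, _, rfl⟩) ⟨?_, ?_⟩)
  · rintro ⟨⟨a, b⟩, f⟩ ⟨⟨a', b'⟩, f'⟩ h
    obtain ⟨h1, h2, h3⟩ := sk_inj (congrArg Subtype.val h)
    exact Prod.ext (Prod.ext h1 h2) h3
  · rintro ⟨_, a, b, f, rfl⟩
    exact ⟨((a, b), f), rfl⟩

/-- the double sum attached with an isomorphism -/
noncomputable def FF (α : (A ≃ₗ[F] A) → K) (β : (B ≃ₗ[F] B) → K) (α' : (A' ≃ₗ[F] A') → K)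
    (β' : (B' ≃ₗ[F] B') → K) (h : (A × B) ≃ₗ[F] (A' × B')) : K :=
  ∑ x : (A × B) ≃ₗ[F] (A × B), infl α β x * infl α' β' (cg h x⁻¹)

omit [Finite F] in
theorem cg_trans3 (p : (A × B) ≃ₗ[F] (A × B)) (h : (A × B) ≃ₗ[F] (A' × B'))
    (p' : (A' × B') ≃ₗ[F] (A' × B')) (x : (A × B) ≃ₗ[F] (A × B)) :
    cg ((p.trans h).trans p') x = p' * cg h (p * x * p⁻¹) * p'⁻¹ := rfl

omit [Finite F] in
/-- invariance under the parabolic subgroups -/
theorem FF_inv {α : (A ≃ₗ[F] A) → K} {β : (B ≃ₗ[F] B) → K} {α' : (A' ≃ₗ[F] A') → K}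
    {β' : (B' ≃ₗ[F] B') → K} (hα : IsCF α) (hβ : IsCF β) (hα' : IsCF α') (hβ' : IsCF β')
    {p : (A × B) ≃ₗ[F] (A × B)} (hp : p ∈ PB (F := F) A B) {p' : (A' × B') ≃ₗ[F] (A' × B')}
    (hp' : p' ∈ PB (F := F) A' B') (h : (A × B) ≃ₗ[F] (A' × B')) :
    FF α β α' β' ((p.trans h).trans p') = FF α β α' β' h := by
  rw [FF, FF, ← Equiv.sum_comp (MulAut.conj p⁻¹).toEquiv]
  refine Finset.sum_congr rfl fun x _ => ?_
  change infl α β (p⁻¹ * x * p⁻¹⁻¹) * infl α' β' (cg _ (p⁻¹ * x * p⁻¹⁻¹)⁻¹) = _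
  rw [infl_conj hα hβ (Subgroup.inv_mem _ hp), cg_trans3, infl_conj hα' hβ' hp']
  have h1 : p * (p⁻¹ * x * p⁻¹⁻¹)⁻¹ * p⁻¹ = x⁻¹ := by group
  rw [h1]

omit [Finite F] in
/-- the multiplicity as a sum over the group -/
theorem mu_sum (α : (A ≃ₗ[F] A) → K) (β : (B ≃ₗ[F] B) → K) (γ : ((A × B) ≃ₗ[F] (A × B)) → K) :
    mu α β γ = (cP F A B : K)⁻¹ * ∑ x, γ x⁻¹ * infl α β x := by
  rw [sum_infl, mu, cP, Nat.cast_mul, Nat.cast_mul, mul_inv, mul_inv,
    mul_assoc ((Nat.card (A ≃ₗ[F] A) : K)⁻¹ * (Nat.card (B ≃ₗ[F] B) : K)⁻¹)]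
  congr 1
  rw [← Equiv.sum_comp (Equiv.inv (A ≃ₗ[F] A)), Finset.mul_sum]
  refine Finset.sum_congr rfl fun a _ => ?_
  rw [← Equiv.sum_comp (Equiv.inv (B ≃ₗ[F] B)), Finset.mul_sum]
  refine Finset.sum_congr rfl fun b _ => ?_
  rw [Equiv.inv_apply, Equiv.inv_apply, inv_inv, inv_inv, Res, mul_assoc, mul_assoc,
    Finset.sum_mul]
  congr 1
  let E : (A →ₗ[F] B) ≃ (A →ₗ[F] B) :=
    { toFun := fun f => -(((b⁻¹ : B ≃ₗ[F] B) : B →ₗ[F] B) ∘ₗ f ∘ₗ
        ((a⁻¹ : A ≃ₗ[F] A) : A →ₗ[F] A))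
      invFun := fun f => -((b : B →ₗ[F] B) ∘ₗ f ∘ₗ (a : A →ₗ[F] A))
      left_inv := fun f => by
        ext y
        change -(b (-(b⁻¹ (f (a⁻¹ (a y)))))) = f y
        rw [map_neg, neg_neg]
        have h1 : a⁻¹ (a y) = y := a.symm_apply_apply y
        rw [h1]
        exact b.apply_symm_apply _
      right_inv := fun f => by
        ext y
        change -(b⁻¹ (-(b (f (a (a⁻¹ y)))))) = f y
        rw [map_neg, neg_neg]
        have h1 : a (a⁻¹ y) = y := a.apply_symm_apply y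
        rw [h1]
        exact b.symm_apply_apply _ }
  rw [← Equiv.sum_comp E]
  refine Finset.sum_congr rfl fun f _ => ?_
  rw [sk_inv]
  rfl

omit [Finite F] in
theorem sum_ind {G : Type} [Group G] [Fintype G] (Φ ψ : G → K) (hψ : IsCF ψ) :
    ∑ g : G, (∑ h : G, Φ (h * g * h⁻¹)) * ψ g⁻¹ = (Nat.card G : K) * ∑ x, Φ x * ψ x⁻¹ := by
  simp only [Finset.sum_mul]
  rw [Finset.sum_comm]
  have h1 : ∀ h : G, ∑ g : G, Φ (h * g * h⁻¹) * ψ g⁻¹ = ∑ x, Φ x * ψ x⁻¹ := by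
    intro h
    rw [← Equiv.sum_comp (MulAut.conj h).toEquiv (fun x => Φ x * ψ x⁻¹)]
    refine Finset.sum_congr rfl fun g _ => ?_
    change _ = Φ (h * g * h⁻¹) * ψ (h * g * h⁻¹)⁻¹
    have h2 : (h * g * h⁻¹)⁻¹ = h * g⁻¹ * h⁻¹ := by group
    rw [h2, hψ]
  rw [Finset.sum_congr rfl fun h _ => h1 h, Finset.sum_const, Finset.card_univ, nsmul_eq_mul,
    Nat.card_eq_fintype_card]

variable [IsAlgClosed K] [CharZero K]

theorem parseval' {V : Type} [AddCommGroup V] [Module F V] [Finite V] {θ θ' : (V ≃ₗ[F] V) → K}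
    (hθ : IsCF θ) : ip θ θ' = ∑ w ∈ OmS K F (Module.finrank F V), ip θ (X w V) * ip (X w V) θ' := by
  conv_lhs => rw [ip]
  have h1 : ∀ g, θ g * θ' g⁻¹ = ∑ w ∈ OmS K F (Module.finrank F V),
      ip θ (X w V) * (X w V g * θ' g⁻¹) := by
    intro g
    rw [expand hθ g, Finset.sum_mul]
    exact Finset.sum_congr rfl fun w _ => by rw [mul_assoc]
  rw [Finset.sum_congr rfl fun g _ => h1 g, Finset.sum_comm, Finset.mul_sum]
  refine Finset.sum_congr rfl fun w _ => ?_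
  rw [← Finset.mul_sum, mul_left_comm]
  rfl

/-- **Parseval for Harish-Chandra induction.** -/
theorem parseval_HC {α : (A ≃ₗ[F] A) → K} {β : (B ≃ₗ[F] B) → K} {α' : (A' ≃ₗ[F] A') → K}
    {β' : (B' ≃ₗ[F] B') → K} (e₀ : (A × B) ≃ₗ[F] (A' × B')) :
    ∑ w ∈ OmS K F (Module.finrank F (A × B)), mu α β (X w (A × B)) * mu α' β' (X w (A' × B')) =
      (cP F A B : K)⁻¹ * (cP F A' B' : K)⁻¹ * ∑ h, FF α β α' β' h := by
  set G := (A × B) ≃ₗ[F] (A × B)
  set θ : G → K := fun g => (cP F A B : K)⁻¹ * ∑ h : G, infl α β (h * g * h⁻¹) with hθ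
  set θ' : G → K := fun g => (cP F A' B' : K)⁻¹ *
    ∑ h : (A × B) ≃ₗ[F] (A' × B'), infl α' β' (cg h g) with hθ'
  have hG : (Nat.card G : K) ≠ 0 := card_ne' G
  have cfθ : IsCF θ := by
    intro x y
    simp only [hθ]
    congr 1
    rw [← Equiv.sum_comp (Equiv.mulRight x⁻¹)]
    refine Finset.sum_congr rfl fun h _ => ?_
    rw [Equiv.coe_mulRight]
    congr 1
    group
  have cfθ' : IsCF θ' := by
    intro x y
    simp only [hθ']
    congr 1
    let E : ((A × B) ≃ₗ[F] (A' × B')) ≃ ((A × B) ≃ₗ[F] (A' × B')) :=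
      { toFun := fun h => x.symm.trans h
        invFun := fun h => x.trans h
        left_inv := fun h => by ext z <;> simp
        right_inv := fun h => by ext z <;> simp }
    rw [← Equiv.sum_comp E]
    refine Finset.sum_congr rfl fun h _ => ?_
    congr 1
    apply LinearEquiv.ext
    intro z
    change h (x.symm (x (y (x.symm (x (h.symm z)))))) = h (y (h.symm z))
    rw [LinearEquiv.symm_apply_apply, LinearEquiv.symm_apply_apply]
  have h1 : ∀ w, ip θ (X w (A × B)) = mu α β (X w (A × B)) := by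
    intro w
    rw [mu_sum, ip]
    simp only [hθ]
    have h2 : ∀ g : G, (cP F A B : K)⁻¹ * (∑ h : G, infl α β (h * g * h⁻¹)) *
        X w (A × B) g⁻¹ = (cP F A B : K)⁻¹ *
        ((∑ h : G, infl α β (h * g * h⁻¹)) * X w (A × B) g⁻¹) := fun g => mul_assoc _ _ _
    rw [Finset.sum_congr rfl fun g _ => h2 g, ← Finset.mul_sum,
      sum_ind (infl α β) (X w (A × B)) (IsCh.cf (X_isCh w))]
    rw [mul_left_comm, ← mul_assoc (Nat.card G : K)⁻¹, inv_mul_cancel₀ hG, one_mul]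
    congr 1
    exact Finset.sum_congr rfl fun x _ => mul_comm _ _
  have h2 : ∀ w, ip (X w (A × B)) θ' = mu α' β' (X w (A' × B')) := by
    intro w
    rw [mu_sum, ip]
    simp only [hθ', Finset.mul_sum]
    rw [Finset.sum_comm]
    have h3 : ∀ h : (A × B) ≃ₗ[F] (A' × B'), ∑ g : G, (Nat.card G : K)⁻¹ *
        (X w (A × B) g * ((cP F A' B' : K)⁻¹ * infl α' β' (cg h g⁻¹))) =
        (Nat.card G : K)⁻¹ * ((cP F A' B' : K)⁻¹ *
          ∑ x, X w (A' × B') x⁻¹ * infl α' β' x) := by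
      intro h
      rw [← Finset.mul_sum]
      congr 1
      rw [← Equiv.sum_comp (cg h).toEquiv (fun x => X w (A' × B') x⁻¹ * infl α' β' x),
        ← Equiv.sum_comp (Equiv.inv G), Finset.mul_sum]
      refine Finset.sum_congr rfl fun g _ => ?_
      change X w (A × B) g⁻¹ * (_ * infl α' β' (cg h g⁻¹⁻¹)) =
        _ * (X w (A' × B') (cg h g)⁻¹ * infl α' β' (cg h g))
      rw [inv_inv, ← map_inv, X_cg]
      ring
    rw [Finset.sum_congr rfl fun h _ => h3 h, Finset.sum_const, Finset.card_univ, nsmul_eq_mul]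
    have h4 : Fintype.card ((A × B) ≃ₗ[F] (A' × B')) = Nat.card G := by
      rw [← Nat.card_eq_fintype_card]
      refine Nat.card_congr
        { toFun := fun h => h.trans e₀.symm
          invFun := fun h => LinearEquiv.trans h e₀
          left_inv := fun h => by ext z <;> simp
          right_inv := fun h => by ext z <;> simp }
    rw [h4, ← mul_assoc, mul_inv_cancel₀ hG, one_mul, ← Finset.mul_sum]
  have h5 := parseval' (θ' := θ') cfθ
  simp only [h1, h2] at h5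
  rw [← h5, ip]
  simp only [hθ]
  have h6 : ∀ g : G, (cP F A B : K)⁻¹ * (∑ h : G, infl α β (h * g * h⁻¹)) * θ' g⁻¹ =
      (cP F A B : K)⁻¹ * ((∑ h : G, infl α β (h * g * h⁻¹)) * θ' g⁻¹) := fun g => mul_assoc _ _ _
  rw [Finset.sum_congr rfl fun g _ => h6 g, ← Finset.mul_sum, sum_ind (infl α β) θ' cfθ',
    mul_left_comm, ← mul_assoc (Nat.card G : K)⁻¹, inv_mul_cancel₀ hG, one_mul, mul_assoc]
  congr 1
  simp only [hθ', FF, Finset.mul_sum]
  rw [Finset.sum_comm]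
  refine Finset.sum_congr rfl fun h _ => Finset.sum_congr rfl fun x _ => ?_
  ring

end

end Vale.Agent.P180.H393
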