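import Vale.Agent.P180.H354.B2
import Vale.Agent.P180.H386.Sg

/-!
P180 H393: the singular part of a complex character in a block with an abelian defect group.
-/

set_option linter.all false

namespace Vale.Agent.P180.H393.Sing

open Finset Subgroup P179H524 P179C P179A P179P P179Y P179T
open Vale.Agent.P180 Vale.Agent.P180.H386 Vale.Agent.P180.H765
open Vale.Agent.P180.R2.H471.Hc (ip)
open Vale.Agent.P180.H354 (inL_iff_lam)

open scoped Classical

universe u

section

variable {p : ℕ} [hp : Fact p.Prime] {G : Type} [Group G] [Fintype G]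

omit hp in
theorem ip_sg_add_mm (χ θ : Irr G) : ip (sg p χ.1) θ.1 + mm p χ.1 θ.1 =
    if χ = θ then 1 else 0 := by
  have hG0 : (Nat.card G : ℂ) ≠ 0 := by exact_mod_cast Nat.card_pos.ne'
  have h1 := row_orth χ θ
  unfold ip mm
  rw [rsum_eq, ← mul_add]
  have h2 : ∑ h : G, sg p χ.1 h * θ.1 h⁻¹ + ∑ s ∈ univ.filter (fun s : G => ¬ p ∣ orderOf s),
      χ.1 s * θ.1 s⁻¹ = ∑ g : G, χ.1 g * θ.1 g⁻¹ := by
    rw [Finset.sum_filter, ← Finset.sum_add_distrib]
    refine Finset.sum_congr rfl fun g _ => ?_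
    unfold sg
    split_ifs with h3
    · rw [add_zero]
    · rw [zero_mul, zero_add]
  rw [h2, h1]
  split_ifs
  · rw [← Nat.card_eq_fintype_card, inv_mul_cancel₀ hG0]
  · rw [mul_zero]

end

section

variable {p : ℕ} [hp : Fact p.Prime] {k : Type u} [Field k] [IsAlgClosed k] [CharP k p]
  (red : integralClosure ℤ ℂ →+* k) {G : Type} [Group G] [Fintype G]
  {e a : MonoidAlgebra k G} {Q : Subgroup G}

/-- the pairings with the singular part are integers over `|Q|` -/
theorem int_c (he : IsBlockOf (⊤ : Subgroup G) e) (hQ : IsPGroup p Q)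
    (hab : ∀ a ∈ Q, ∀ b ∈ Q, a * b = b * a) (ha : a ∈ Fix (cj k G) Q)
    (hea : e = tr (cj k G) Q ⊤ a) (hbr : H768.Gd.br Q e ≠ 0) (χ : Irr G)
    (hχ : lam red χ.1 (fun g => e.coeff g) = 1) (θ : Irr G) :
    ∃ c : ℤ, (Nat.card Q : ℂ) * ip (sg p χ.1) θ.1 = c := by
  have hB := isBlock_of he
  obtain ⟨l, hl, hl', hlz, hle, -⟩ := exists_card_inL_le_of_tr red he hQ hab ha hea hbr
  have hin : InL red l χ.1 := (inL_iff_lam red hB hl' hle χ).1 hχ
  have hD := isDefectGroup_of hQ ha hea hbr
  have habQ : Q ≤ centralizer (Q : Set G) := by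
    intro x hx
    rw [mem_centralizer_iff]
    intro y hy
    exact hab y hy x hx
  obtain ⟨c, hc⟩ := mm_int red hl hQ habQ (hT_of_block hB hD hQ hab hl hlz) (stA p G) χ θ hin
  have h1 := ip_sg_add_mm (p := p) χ θ
  have h2 : ip (sg p χ.1) θ.1 = (if χ = θ then 1 else 0) - mm p χ.1 θ.1 := by
    rw [← h1]; ring
  rw [h2, mul_sub, hc]
  split_ifs
  · exact ⟨Nat.card Q - c, by push_cast; ring⟩
  · exact ⟨-c, by push_cast; ring⟩

/-- the singular part is not zero -/
theorem ne_c (he : IsBlockOf (⊤ : Subgroup G) e) (hQ : IsPGroup p Q)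
    (hab : ∀ a ∈ Q, ∀ b ∈ Q, a * b = b * a) (ha : a ∈ Fix (cj k G) Q)
    (hea : e = tr (cj k G) Q ⊤ a) (hbr : H768.Gd.br Q e ≠ 0) (hQ1 : Q ≠ ⊥) (χ : Irr G)
    (hχ : lam red χ.1 (fun g => e.coeff g) = 1) : ip (sg p χ.1) χ.1 ≠ 0 := by
  intro h0
  have hB := isBlock_of he
  obtain ⟨l, hl, hl', hlz, hle, -⟩ := exists_card_inL_le_of_tr red he hQ hab ha hea hbr
  have hin : InL red l χ.1 := (inL_iff_lam red hB hl' hle χ).1 hχ
  have hG0 : (Nat.card G : ℂ) ≠ 0 := by exact_mod_cast Nat.card_pos.ne'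
  -- the character vanishes on the singular elements
  have hz : ∀ t : G, p ∣ orderOf t → χ.1 t = 0 := by
    have h1 : ∑ t : G, sg p χ.1 t * χ.1 t⁻¹ =
        ((∑ t : G, if p ∣ orderOf t then Complex.normSq (χ.1 t) else 0 : ℝ) : ℂ) := by
      push_cast
      refine Finset.sum_congr rfl fun t _ => ?_
      unfold sg
      split_ifs
      · rw [Irr.inv_eq_conj, Complex.mul_conj]
      · rw [zero_mul]
        norm_num
    unfold ip at h0
    rw [h1] at h0
    have h2 := (mul_eq_zero.1 h0).resolve_left (inv_ne_zero hG0)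
    have h3 : (∑ t : G, if p ∣ orderOf t then Complex.normSq (χ.1 t) else 0 : ℝ) = 0 := by
      exact_mod_cast h2
    have h4 := (Finset.sum_eq_zero_iff_of_nonneg (fun t _ => by
      split_ifs
      · exact Complex.normSq_nonneg _
      · exact le_rfl)).1 h3
    intro t ht
    have h5 := h4 t (Finset.mem_univ t)
    rw [if_pos ht] at h5
    exact Complex.normSq_eq_zero.1 h5
  have hmm : ∀ θ : Irr G, θ ≠ χ → mm p χ.1 θ.1 = 0 := by
    intro θ hθ
    have h1 := ip_sg_add_mm (p := p) χ θ
    rw [if_neg (Ne.symm hθ)] at h1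
    have h2 : ip (sg p χ.1) θ.1 = 0 := by
      unfold ip
      rw [Finset.sum_eq_zero, mul_zero]
      intro t _
      unfold sg
      split_ifs with h3
      · rw [hz t h3, zero_mul]
      · rw [zero_mul]
    rw [h2, zero_add] at h1
    exact h1
  have hmm1 : mm p χ.1 χ.1 = 1 := by
    have h1 := ip_sg_add_mm (p := p) χ χ
    rw [if_pos rfl, h0, zero_add] at h1
    exact h1
  obtain ⟨θ, hθ⟩ := exists_zb_ne (p := p) red hB hl.add hl.smul hlz
  obtain ⟨X, hX, hX2⟩ := om_zb (p := p) red χ θ
  have hcf : ∀ θ : Irr G, P179C.IsCF (fun t => red (zb p θ t)) :=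
    fun θ g x => congrArg red (zb_isCF p θ g x)
  have hX0 : red X ≠ 0 := by
    rw [hX2, hin _ (hcf θ)]
    exact hθ
  have hθχ : θ = χ := by
    by_contra hne
    rw [hmm θ hne, mul_zero] at hX
    have h1 : (X : ℂ) = 0 := (mul_eq_zero.1 hX).resolve_right χ.one_ne_zero
    have h2 : X = 0 := Subtype.ext h1
    rw [h2, map_zero] at hX0
    exact hX0 rfl
  subst hθχ
  rw [hmm1, mul_one] at hX
  apply hθ
  apply hl.supp
  intro t ht
  by_cases hreg : ¬ p ∣ orderOf t
  swap
  · rw [zb, if_neg hreg, map_zero]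
  rw [zb, if_pos hreg]
  -- the class function of the class of `t⁻¹`
  set s : G := t⁻¹ with hs
  have hsC : s ∈ centralizer (Q : Set G) := inv_mem ht
  let z : G → integralClosure ℤ ℂ := fun g => if IsConj s g then 1 else 0
  have hzcf : P179C.IsCF z := by
    intro x y
    have : IsConj s (x * y * x⁻¹) ↔ IsConj s y := by
      have h1 : IsConj y (x * y * x⁻¹) := isConj_iff.2 ⟨x, rfl⟩
      exact ⟨fun h => h.trans h1.symm, fun h => h.trans h1⟩
    simp only [z, this]
  obtain ⟨Y, hY, -⟩ := exists_omAA red θ hzcf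
  have hcard : (Nat.card (centralizer ({s} : Set G)) : ℂ) *
      (∑ g : G, ((z g : integralClosure ℤ ℂ) : ℂ) * θ.1 g) = Nat.card G * θ.1 s := by
    have h1 : ∑ g : G, ((z g : integralClosure ℤ ℂ) : ℂ) * θ.1 g =
        (univ.filter fun g : G => IsConj s g).card * θ.1 s := by
      rw [← nsmul_eq_mul, ← Finset.sum_const, Finset.sum_filter]
      refine Finset.sum_congr rfl fun g _ => ?_
      simp only [z]
      split_ifs with h
      · obtain ⟨x, rfl⟩ := isConj_iff.1 h
        rw [Irr.conj]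
        push_cast
        ring
      · push_cast
        ring
    have h2 : Nat.card (centralizer ({s} : Set G)) * (univ.filter fun g : G => IsConj s g).card =
        Nat.card G := by
      have h3 : (univ.filter fun g : G => IsConj s g).card =
          Fintype.card (MulAction.orbit (ConjAct G) s) := by
        rw [← Fintype.card_subtype]
        refine Fintype.card_congr (Equiv.subtypeEquivRight fun g => ?_)
        rw [ConjAct.mem_orbit_conjAct, isConj_comm]
      have h4 : Nat.card (centralizer ({s} : Set G)) =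
          Fintype.card (MulAction.stabilizer (ConjAct G) s) := by
        rw [← Nat.card_eq_fintype_card]
        exact Subgroup.nat_card_centralizer_nat_card_stabilizer s
      rw [h3, h4, mul_comm, MulAction.card_orbit_mul_card_stabilizer_eq_card_group,
        Nat.card_eq_fintype_card]
      exact ConjAct.card
    rw [h1, ← mul_assoc, ← h2]
    push_cast
    ring
  have hdvd : p ∣ Nat.card (centralizer ({s} : Set G)) := by
    have h1 : Q ≤ centralizer ({s} : Set G) := by
      intro x hx
      rw [mem_centralizer_iff]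
      intro y hy
      rw [Set.mem_singleton_iff] at hy
      subst hy
      exact (mem_centralizer_iff.1 hsC x hx).symm
    have h2 : p ∣ Nat.card Q := by
      obtain ⟨n, hn⟩ := hQ.exists_card_eq
      rw [hn]
      refine dvd_pow_self p ?_
      rintro rfl
      rw [pow_zero] at hn
      exact hQ1 (Subgroup.card_eq_one.1 hn)
    exact h2.trans (Subgroup.card_dvd_of_le h1)
  have hkey : X * chA θ s = (Nat.card (centralizer ({s} : Set G)) : integralClosure ℤ ℂ) * Y := by
    apply Subtype.ext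
    push_cast
    have h1 : (Y : ℂ) * θ.1 1 = ∑ g : G, ((z g : integralClosure ℤ ℂ) : ℂ) * θ.1 g := by
      rw [hY, omC, div_mul_cancel₀ _ θ.one_ne_zero]
    apply mul_right_cancel₀ θ.one_ne_zero
    have h2 : ((chA θ s : integralClosure ℤ ℂ) : ℂ) = θ.1 s := rfl
    rw [h2]
    calc (X : ℂ) * θ.1 s * θ.1 1 = (X * θ.1 1) * θ.1 s := by ring
      _ = Nat.card G * θ.1 s := by rw [hX]
      _ = (Nat.card (centralizer ({s} : Set G)) : ℂ) * (Y * θ.1 1) := by rw [h1, hcard]
      _ = _ := by ring
  have h3 := congrArg red hkey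
  rw [map_mul, map_mul, map_natCast, (CharP.cast_eq_zero_iff k p _).2 hdvd, zero_mul] at h3
  exact (mul_eq_zero.1 h3).resolve_left hX0

end

end Vale.Agent.P180.H393.Sing
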